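import Claimed.Agent.R314.Defs
import Claimed.Agent.R314.T.HT1

/-!
# Row 314, block UC, package UCF (helper257; chief helper266): `Fill` and deck maps for coverings

Abstract topological statements (no embedding, no metric):

* `ucf_fill_range` : `Fill k (range ι) ↔ Fill k univ` for an embedding `ι`;
* `ucf_fill_cov` : `Fill k` lifts along covering maps for `k ≥ 2` (project, fill, lift over the cube, uniqueness of lifts on `cbd k`);
* `ucf_fill_low` : `Fill k univ`, `k ≤ 2`, for simply connected spaces (`k = 2` from `fill_of_pi`);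
* `ucf_fill_all` : all `Fill k` for a simply connected covering space of a space with `Fill k`, `k ≥ 3`;
* `ucf_deck_abs` : deck transformations of a simply connected, locally path connected covering space are transitive on the fibres.
-/

set_option autoImplicit false
open scoped Topology
open Set

namespace Claimed.Agent.R314

theorem ucf_cbd_subset (k : ℕ) : cbd k ⊆ cube k := fun _ hx => hx.1

/-! ## transfer along embeddings -/

section transfer

variable {A Y : Type} [TopologicalSpace A] [TopologicalSpace Y]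

theorem ucf_fill_range_of_univ [Nonempty A] {ι : A → Y} (hι : Topology.IsEmbedding ι) {k : ℕ}
    (h : Fill k (univ : Set A)) : Fill k (range ι) := by
  intro f hf hm
  have h1 : ∀ x ∈ cbd k, ι (Function.invFun ι (f x)) = f x := fun x hx =>
    Function.invFun_eq (hm hx)
  have h2 : ContinuousOn (Function.invFun ι ∘ f) (cbd k) := by
    rw [hι.isInducing.continuousOn_iff]
    exact hf.congr fun x hx => h1 x hx
  obtain ⟨F, hF, -, hFe⟩ := h _ h2 (mapsTo_univ _ _)
  refine ⟨ι ∘ F, hι.continuous.comp_continuousOn hF, fun x _ => mem_range_self _, fun x hx => ?_⟩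
  simp only [Function.comp_apply, hFe hx, h1 x hx]

theorem ucf_fill_univ_of_range [Nonempty A] {ι : A → Y} (hι : Topology.IsEmbedding ι) {k : ℕ}
    (h : Fill k (range ι)) : Fill k (univ : Set A) := by
  intro f hf _
  obtain ⟨F, hF, hFm, hFe⟩ := h (ι ∘ f) (hι.continuous.comp_continuousOn hf)
    (fun x _ => mem_range_self _)
  have h1 : ∀ x ∈ cube k, ι (Function.invFun ι (F x)) = F x := fun x hx =>
    Function.invFun_eq (hFm hx)
  refine ⟨Function.invFun ι ∘ F, ?_, mapsTo_univ _ _, fun x hx => ?_⟩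
  · rw [hι.isInducing.continuousOn_iff]
    exact hF.congr fun x hx => h1 x hx
  · apply hι.injective
    simp only [Function.comp_apply]
    rw [h1 x (ucf_cbd_subset k hx), hFe hx]
    rfl

/-- `Fill` only depends on the homeomorphism type. -/
theorem ucf_fill_range [Nonempty A] {ι : A → Y} (hι : Topology.IsEmbedding ι) (k : ℕ) :
    Fill k (range ι) ↔ Fill k (univ : Set A) :=
  ⟨ucf_fill_univ_of_range hι, ucf_fill_range_of_univ hι⟩

/-- `Fill` for a set and for the corresponding subtype. -/
theorem ucf_fill_subtype {S : Set Y} (hS : S.Nonempty) (k : ℕ) :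
    Fill k S ↔ Fill k (univ : Set S) := by
  have : Nonempty S := hS.to_subtype
  have h := ucf_fill_range (A := S) (Y := Y) Topology.IsEmbedding.subtypeVal k
  rwa [Subtype.range_coe] at h

end transfer

/-! ## the cube and its boundary -/

theorem ucf_zero_mem_cbd {k : ℕ} (hk : 1 ≤ k) : (0 : Fin k → ℝ) ∈ cbd k :=
  ⟨⟨le_refl _, zero_le_one⟩, ⟨⟨0, hk⟩, Or.inl rfl⟩⟩

/-- the face `x i = c` of the cube. -/
def ucfFace (k : ℕ) (i : Fin k) (c : ℝ) : Set (Fin k → ℝ) := {x | x ∈ cube k ∧ x i = c}

theorem ucf_face_convex (k : ℕ) (i : Fin k) (c : ℝ) : Convex ℝ (ucfFace k i c) := by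
  have h1 : Convex ℝ (cube k) := convex_Icc _ _
  have h2 : Convex ℝ {x : Fin k → ℝ | x i = c} := by
    intro x hx y hy a b _ _ hab
    simp only [mem_ofPred_eq, Pi.add_apply, Pi.smul_apply, smul_eq_mul] at hx hy ⊢
    rw [hx, hy, ← add_mul, hab, one_mul]
  exact h1.inter h2

theorem ucf_face_subset {k : ℕ} (i : Fin k) {c : ℝ} (hc : c = 0 ∨ c = 1) :
    ucfFace k i c ⊆ cbd k := by
  rintro x ⟨hx, hxi⟩
  exact ⟨hx, i, by rcases hc with rfl | rfl <;> simp [hxi]⟩

/-- two faces in different directions meet. -/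
theorem ucf_face_inter {k : ℕ} {i j : Fin k} (hij : i ≠ j) {c d : ℝ} (hc : c = 0 ∨ c = 1)
    (hd : d = 0 ∨ d = 1) : (ucfFace k i c ∩ ucfFace k j d).Nonempty := by
  have hc' : 0 ≤ c ∧ c ≤ 1 := by rcases hc with rfl | rfl <;> norm_num
  have hd' : 0 ≤ d ∧ d ≤ 1 := by rcases hd with rfl | rfl <;> norm_num
  refine ⟨fun l => if l = i then c else if l = j then d else 0, ⟨⟨?_, ?_⟩, by simp⟩,
    ⟨⟨?_, ?_⟩, by simp [hij.symm]⟩⟩ <;>
  · intro l
    simp only [Pi.zero_apply, Pi.one_apply]
    split_ifs <;> first | exact hc'.1 | exact hc'.2 | exact hd'.1 | exact hd'.2 | norm_num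

theorem ucf_cbd_preconnected {k : ℕ} (hk : 2 ≤ k) : IsPreconnected (cbd k) := by
  apply isPreconnected_of_forall_pair
  rintro x ⟨hx, i, hxi⟩ y ⟨hy, j, hyj⟩
  obtain ⟨c, hc, hxc⟩ : ∃ c : ℝ, (c = 0 ∨ c = 1) ∧ x i = c := ⟨x i, hxi, rfl⟩
  obtain ⟨d, hd, hyd⟩ : ∃ d : ℝ, (d = 0 ∨ d = 1) ∧ y j = d := ⟨y j, hyj, rfl⟩
  have hxF : x ∈ ucfFace k i c := ⟨hx, hxc⟩
  have hyF : y ∈ ucfFace k j d := ⟨hy, hyd⟩
  by_cases hij : i = j
  · subst hij
    obtain ⟨l, hl⟩ : ∃ l : Fin k, i ≠ l := by
      by_contra hcon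
      push Not at hcon
      have h0 := hcon ⟨0, by omega⟩
      have h1 := hcon ⟨1, by omega⟩
      have := h0.symm.trans h1
      simp [Fin.ext_iff] at this
    have hz : (0 : ℝ) = 0 ∨ (0 : ℝ) = 1 := Or.inl rfl
    refine ⟨(ucfFace k i c ∪ ucfFace k l 0) ∪ ucfFace k i d, ?_, Or.inl (Or.inl hxF), Or.inr hyF, ?_⟩
    · exact union_subset (union_subset (ucf_face_subset i hc) (ucf_face_subset l hz))
        (ucf_face_subset i hd)
    · refine IsPreconnected.union' ?_ (IsPreconnected.union' (ucf_face_inter hl hc hz)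
        (ucf_face_convex k i c).isPreconnected (ucf_face_convex k l 0).isPreconnected)
        (ucf_face_convex k i d).isPreconnected
      obtain ⟨z, hz1, hz2⟩ := ucf_face_inter hl.symm hz hd
      exact ⟨z, Or.inr hz1, hz2⟩
  · exact ⟨ucfFace k i c ∪ ucfFace k j d,
      union_subset (ucf_face_subset i hc) (ucf_face_subset j hd), Or.inl hxF, Or.inr hyF,
      IsPreconnected.union' (ucf_face_inter hij hc hd) (ucf_face_convex k i c).isPreconnected
        (ucf_face_convex k j d).isPreconnected⟩

theorem ucf_cube_simplyConnected (k : ℕ) : SimplyConnectedSpace (cube k) :=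
  have : ContractibleSpace (cube k) :=
    (convex_Icc (0 : Fin k → ℝ) 1).contractibleSpace ⟨0, le_refl _, zero_le_one⟩
  inferInstance

theorem ucf_cube_locallyPathConnected (k : ℕ) : LocallyPathConnectedSpace (cube k) :=
  (convex_Icc (0 : Fin k → ℝ) 1).locallyPathConnectedSpace

/-! ## lifting fillings along a covering map -/

section cov

variable {A B : Type} [TopologicalSpace A] [TopologicalSpace B] {p : A → B}

/-- **(F1)** project, fill, lift. -/
theorem ucf_fill_cov (hp : IsCoveringMap p) {k : ℕ} (hk : 2 ≤ k) (hB : Fill k (univ : Set B)) :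
    Fill k (univ : Set A) := by
  intro f hf _
  obtain ⟨G, hG, -, hGe⟩ := hB (p ∘ f) (hp.continuous.comp_continuousOn hf) (mapsTo_univ _ _)
  have := ucf_cube_simplyConnected k
  have := ucf_cube_locallyPathConnected k
  have h0 : (0 : Fin k → ℝ) ∈ cbd k := ucf_zero_mem_cbd (by omega)
  obtain ⟨F, ⟨hF0, hFp⟩, -⟩ := hp.existsUnique_continuousMap_lifts
    (⟨(cube k).domRestrict G, continuousOn_iff_continuous_domRestrict.1 hG⟩ : C(cube k, B))
    ⟨0, ucf_cbd_subset k h0⟩ (f 0) (hGe h0).symm
  classical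
  let F' : (Fin k → ℝ) → A := fun x => if hx : x ∈ cube k then F ⟨x, hx⟩ else f 0
  have hF' : ∀ (x : Fin k → ℝ) (hx : x ∈ cube k), F' x = F ⟨x, hx⟩ := fun x hx => dif_pos hx
  have hc : ContinuousOn F' (cube k) := by
    rw [continuousOn_iff_continuous_domRestrict]
    have : (cube k).domRestrict F' = F := by
      funext x
      exact hF' x.1 x.2
    rw [this]
    exact F.continuous
  refine ⟨F', hc, mapsTo_univ _ _, ?_⟩
  refine hp.eqOn_of_comp_eqOn (ucf_cbd_preconnected hk) (hc.mono (ucf_cbd_subset k)) hf ?_ h0 ?_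
  · intro x hx
    have h1 := congrFun hFp ⟨x, ucf_cbd_subset k hx⟩
    simp only [Function.comp_apply, ContinuousMap.coe_mk, domRestrict_apply] at h1
    simp only [Function.comp_apply, hF' x (ucf_cbd_subset k hx), h1]
    exact hGe hx
  · rw [hF' 0 (ucf_cbd_subset k h0)]
    exact hF0

end cov

/-! ## low dimensions -/

section low

variable {A : Type} [TopologicalSpace A]

theorem ucf_fill_zero : Fill 0 (univ : Set A) := by
  intro f _ _
  refine ⟨fun _ => f 0, continuousOn_const, mapsTo_univ _ _, ?_⟩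
  rintro x ⟨-, i, -⟩
  exact i.elim0

theorem ucf_fill_one [PathConnectedSpace A] : Fill 1 (univ : Set A) := by
  intro f _ _
  let γ : Path (f 0) (f 1) := PathConnectedSpace.somePath _ _
  refine ⟨fun x => γ.extend (x 0), ?_, mapsTo_univ _ _, ?_⟩
  · exact (γ.continuous_extend.comp (continuous_apply 0)).continuousOn
  · rintro x ⟨-, i, hi⟩
    obtain rfl : i = 0 := Subsingleton.elim _ _
    rcases hi with hi | hi
    · have hx : x = 0 := by
        funext j
        obtain rfl : j = 0 := Subsingleton.elim _ _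
        exact hi
      subst hx
      simp
    · have hx : x = 1 := by
        funext j
        obtain rfl : j = 0 := Subsingleton.elim _ _
        exact hi
      subst hx
      simp

theorem ucf_fill_two [SimplyConnectedSpace A] : Fill 2 (univ : Set A) := by
  have h1 : SimplyConnectedSpace (univ : Set A) :=
    (Homeomorph.Set.univ A).toHomotopyEquiv.simplyConnectedSpace
  exact fill_of_pi (univ : Set A) 1 le_rfl fun x =>
    (HomotopyGroup.pi1EquivFundamentalGroup (X := (univ : Set A)) (x := x)).subsingleton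

/-- **(F2)** -/
theorem ucf_fill_low [SimplyConnectedSpace A] {k : ℕ} (hk : k ≤ 2) : Fill k (univ : Set A) := by
  interval_cases k
  · exact ucf_fill_zero
  · exact ucf_fill_one
  · exact ucf_fill_two

end low

/-! ## all fillings, deck maps -/

section deck

variable {A B : Type} [TopologicalSpace A] [TopologicalSpace B] {p : A → B}

/-- **(F)** a simply connected covering space of a space with `Fill k`, `k ≥ 3`, has all `Fill k`. -/
theorem ucf_fill_all (hp : IsCoveringMap p) [SimplyConnectedSpace A]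
    (hB : ∀ k, 3 ≤ k → Fill k (univ : Set B)) (k : ℕ) : Fill k (univ : Set A) := by
  rcases Nat.lt_or_ge k 3 with hk | hk
  · exact ucf_fill_low (by omega)
  · exact ucf_fill_cov hp (by omega) (hB k hk)

/-- **(D)** deck transformations are transitive on the fibres. -/
theorem ucf_deck_abs (hp : IsCoveringMap p) [SimplyConnectedSpace A] [LocallyPathConnectedSpace A]
    {x y : A} (h : p x = p y) : ∃ γ : A ≃ₜ A, p ∘ γ = p ∧ γ x = y := by
  let P : C(A, B) := ⟨p, hp.continuous⟩
  obtain ⟨γ, ⟨hγ0, hγp⟩, -⟩ := hp.existsUnique_continuousMap_lifts P x y h.symm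
  obtain ⟨δ, ⟨hδ0, hδp⟩, -⟩ := hp.existsUnique_continuousMap_lifts P y x h
  have hγp' : ∀ a, p (γ a) = p a := fun a => congrFun hγp a
  have hδp' : ∀ a, p (δ a) = p a := fun a => congrFun hδp a
  have h1 : (δ ∘ γ : A → A) = id :=
    hp.eq_of_comp_eq (δ.continuous.comp γ.continuous) continuous_id
      (by funext a; simp [hδp', hγp']) x (by simp [hγ0, hδ0])
  have h2 : (γ ∘ δ : A → A) = id :=
    hp.eq_of_comp_eq (γ.continuous.comp δ.continuous) continuous_id
      (by funext a; simp [hδp', hγp']) y (by simp [hγ0, hδ0])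
  exact ⟨⟨⟨γ, δ, congrFun h1, congrFun h2⟩, γ.continuous, δ.continuous⟩, hγp, hγ0⟩

end deck

end Claimed.Agent.R314
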