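import Claimed.Agent.R314.UC.Loc
import Claimed.Agent.R314.UC.Fill
import Claimed.Agent.R314.T.HT1

/-!
# Row 314, block UC, half UCF (helper257; chief helper266): deck transformations and `Fill k X`

Input: `P : X → M` (restriction of a linear map) is an `IsCoveringMap` of the subtypes, `X` is simply connected and locally path connected.
Tool: `IsCoveringMap.existsUnique_continuousMap_lifts` (Mathlib, `Topology/Homotopy/Lifting`), `IsCoveringMap.eq_of_comp_eq` (uniqueness of lifts on
preconnected spaces).  The abstract statements are in `UC/Fill.lean` (`ucf_deck_abs`, `ucf_fill_all`, `ucf_fill_subtype`).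
-/

set_option autoImplicit false
open scoped ContDiff Topology
open Set Claims.C0499 Claimed.Agent.R315

namespace Claimed.Agent.R314

variable {V : Type} [NormedAddCommGroup V] [NormedSpace ℝ V]
variable {V' : Type} [NormedAddCommGroup V'] [NormedSpace ℝ V']

/-- **leaf UC-DECK** -/
theorem ucf_deck {X : Set V'} {M : Set V} {P : V' →L[ℝ] V} (hm : MapsTo P X M)
    (hcov : IsCoveringMap (hm.restrict P X M)) (hsc : SimplyConnectedSpace X)
    (hlp : LocallyPathConnectedSpace X) : HasDeck X P := by
  intro x hx x' hx' hP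
  obtain ⟨δ, hδp, hδx⟩ := ucf_deck_abs hcov (x := ⟨x, hx⟩) (y := ⟨x', hx'⟩) (Subtype.ext hP)
  classical
  -- ambient extension of a self map of the subtype
  let ext : (X → X) → V' → V' := fun φ z => if h : z ∈ X then (φ ⟨z, h⟩ : V') else z
  have hext : ∀ (φ : X → X) (z : V') (h : z ∈ X), ext φ z = φ ⟨z, h⟩ := fun φ z h => dif_pos h
  have hcont : ∀ φ : X → X, Continuous φ → ContinuousOn (ext φ) X := by
    intro φ hφ
    rw [continuousOn_iff_continuous_domRestrict]
    have : X.domRestrict (ext φ) = fun z => (φ z : V') := by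
      funext z
      exact hext φ z.1 z.2
    rw [this]
    exact continuous_subtype_val.comp hφ
  have hproj : ∀ z : X, P (δ z : V') = P z := fun z =>
    congrArg Subtype.val (congrFun hδp z)
  have hproj' : ∀ z : X, P (δ.symm z : V') = P z := fun z => by
    have := hproj (δ.symm z)
    rw [δ.apply_symm_apply] at this
    exact this.symm
  refine ⟨ext δ, ext δ.symm, ⟨hcont _ δ.continuous, hcont _ δ.symm.continuous, ?_, ?_, ?_, ?_, ?_, ?_⟩,
    ?_⟩
  · intro z hz
    rw [hext _ z hz]
    exact Subtype.coe_prop _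
  · intro z hz
    rw [hext _ z hz]
    exact Subtype.coe_prop _
  · intro z hz
    rw [hext _ z hz, hext _ _ (Subtype.coe_prop _)]
    simp
  · intro z hz
    rw [hext _ z hz, hext _ _ (Subtype.coe_prop _)]
    simp
  · intro z hz
    rw [hext _ z hz]
    exact hproj ⟨z, hz⟩
  · intro z hz
    rw [hext _ z hz]
    exact hproj' ⟨z, hz⟩
  · rw [hext _ x hx, hδx]

/-- **leaf UC-FILL** -/
theorem ucf_fill {X : Set V'} {M : Set V} {P : V' →L[ℝ] V} (hm : MapsTo P X M)
    (hcov : IsCoveringMap (hm.restrict P X M)) (hsc : SimplyConnectedSpace X)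
    (hfill : ∀ k, 3 ≤ k → Fill k M) : ∀ k, Fill k X := by
  intro k
  have hXne : X.Nonempty := nonempty_coe_sort.1 (inferInstance : Nonempty X)
  obtain ⟨x₀, hx₀⟩ := hXne
  have hMne : M.Nonempty := ⟨P x₀, hm hx₀⟩
  have hXne : X.Nonempty := ⟨x₀, hx₀⟩
  rw [ucf_fill_subtype hXne]
  exact ucf_fill_all hcov (fun j hj => (ucf_fill_subtype hMne j).1 (hfill j hj)) k

end Claimed.Agent.R314
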