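import Claimed.Agent.R314.UC.Defs
import Claimed.Agent.R314.Iso

/-!
# Row 314, block UC (helper266): from the sheets to `IsMfd n X` and `IsCov n X M P`

Input: `Sheeted X M P` (`UC/Defs.lean`), `IsMfd n M`.

BASIC FACT.  Let `(G, Λ, O)` be a sheet.  If `(φ, W)` is a parametrisation of `M` with `φ '' W ⊆ G` then `(Λ ∘ φ, W)` is a
parametrisation of `X` (`ucs_up`): smooth; `P ∘ D(Λ ∘ φ) = Dφ` injective; image `= X ∩ O ∩ P⁻¹ O_φ` (`φ '' W = M ∩ O_φ`); inverse `= invFunOn φ W ∘ P`.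
Conversely if `(ψ, U)` is a parametrisation of `X` with `ψ '' U ⊆ O` then `ψ = Λ ∘ (P ∘ ψ)` on `U` and `(P ∘ ψ, U)` is a parametrisation of `M` (`ucs_down`):
image `= M ∩ G ∩ Λ⁻¹ O_ψ`, inverse `= invFunOn ψ U ∘ Λ`.
The metric statements (properness, deck maps are isometries, cocompactness) are in helper274's `UC/Metric.lean` (`ucm_main`).
-/

set_option autoImplicit false
set_option linter.unusedSectionVars false
open scoped ContDiff Topology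
open Set Claims.C0499 Claimed.Agent.R315

namespace Claimed.Agent.R314

variable {V : Type} [NormedAddCommGroup V] [NormedSpace ℝ V] [FiniteDimensional ℝ V]
variable {V' : Type} [NormedAddCommGroup V'] [NormedSpace ℝ V'] [FiniteDimensional ℝ V']
variable {n : ℕ} {X : Set V'} {M : Set V} {P : V' →L[ℝ] V}

theorem ucs_fderiv_comp (L : V' →L[ℝ] V) {f : E n → V'} {u : E n} (hf : DifferentiableAt ℝ f u) :
    fderiv ℝ (L ∘ f) u = L.comp (fderiv ℝ f u) :=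
  (L.hasFDerivAt.comp u hf.hasFDerivAt).fderiv

/-- parametrisations of `M` inside `G` lift to the sheet -/
theorem ucs_up {G : Set V} {Λ : V → V'} {O : Set V'} (hΛ : ContDiff ℝ ∞ Λ) (hPΛ : ∀ y, P (Λ y) = y)
    (hO : IsOpen O) (him : Λ '' (M ∩ G) = X ∩ O) {φ : E n → V} {W : Set (E n)}
    (hp : IsParam M φ W) (hG : φ '' W ⊆ G) : IsParam X (Λ ∘ φ) W := by
  obtain ⟨Oφ, hOφ, hφe⟩ := if_image hp
  have hs : ContDiffOn ℝ ∞ (Λ ∘ φ) W := hΛ.comp_contDiffOn (if_smooth hp)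
  have hid : (P ∘ (Λ ∘ φ)) = φ := by
    funext w
    exact hPΛ _
  refine param_mk (O := O ∩ P ⁻¹' Oφ) (g := fun z => Function.invFunOn φ W (P z)) (if_open hp) hs
    ?_ (hO.inter (hOφ.preimage P.continuous)) ?_ ?_ ?_
  · intro u hu
    have hd : DifferentiableAt ℝ (Λ ∘ φ) u :=
      (hs.contDiffAt ((if_open hp).mem_nhds hu)).differentiableAt (by simp)
    have h1 := ucs_fderiv_comp P hd
    rw [hid] at h1
    have h2 := if_imm hp hu
    rw [h1] at h2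
    exact Function.Injective.of_comp (f := P) h2
  · ext z
    constructor
    · rintro ⟨w, hw, rfl⟩
      have h1 : Λ (φ w) ∈ X ∩ O := him ▸ mem_image_of_mem Λ ⟨if_mem hp hw, hG (mem_image_of_mem φ hw)⟩
      refine ⟨h1.1, h1.2, ?_⟩
      show P (Λ (φ w)) ∈ Oφ
      rw [hPΛ]
      exact (hφe ▸ mem_image_of_mem φ hw : φ w ∈ M ∩ Oφ).2
    · rintro ⟨hzX, hzO, hzφ⟩
      have h1 : z ∈ Λ '' (M ∩ G) := him ▸ ⟨hzX, hzO⟩
      obtain ⟨y, hy, rfl⟩ := h1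
      have h2 : y ∈ Oφ := by
        have : P (Λ y) ∈ Oφ := hzφ
        rwa [hPΛ] at this
      have h3 : y ∈ φ '' W := hφe ▸ ⟨hy.1, h2⟩
      obtain ⟨w, hw, rfl⟩ := h3
      exact ⟨w, hw, rfl⟩
  · refine (if_contInv hp).comp P.continuous.continuousOn ?_
    rintro _ ⟨w, hw, rfl⟩
    show P (Λ (φ w)) ∈ φ '' W
    rw [hPΛ]
    exact mem_image_of_mem φ hw
  · intro u hu
    show Function.invFunOn φ W (P (Λ (φ u))) = u
    rw [hPΛ, if_leftInv hp hu]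

/-- parametrisations of `X` inside a sheet project to parametrisations of `M` -/
theorem ucs_down {G : Set V} {Λ : V → V'} {O : Set V'} (hΛ : ContDiff ℝ ∞ Λ) (hPΛ : ∀ y, P (Λ y) = y)
    (hGo : IsOpen G) (him : Λ '' (M ∩ G) = X ∩ O) {ψ : E n → V'} {U : Set (E n)}
    (hp : IsParam X ψ U) (hO : ψ '' U ⊆ O) : IsParam M (P ∘ ψ) U := by
  obtain ⟨Oψ, hOψ, hψe⟩ := if_image hp
  have key : ∀ u ∈ U, P (ψ u) ∈ M ∩ G ∧ Λ (P (ψ u)) = ψ u := by
    intro u hu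
    have h1 : ψ u ∈ Λ '' (M ∩ G) := him ▸ ⟨if_mem hp hu, hO (mem_image_of_mem ψ hu)⟩
    obtain ⟨y, hy, hye⟩ := h1
    rw [← hye, hPΛ]
    exact ⟨hy, rfl⟩
  refine param_mk (O := G ∩ Λ ⁻¹' Oψ) (g := fun y => Function.invFunOn ψ U (Λ y)) (if_open hp)
    (P.contDiff.comp_contDiffOn (if_smooth hp)) ?_ (hGo.inter (hOψ.preimage hΛ.continuous)) ?_ ?_ ?_
  · intro u hu
    have hd : DifferentiableAt ℝ (P ∘ ψ) u := P.differentiableAt.comp u (if_differentiableAt hp hu)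
    have he : ψ =ᶠ[𝓝 u] Λ ∘ (P ∘ ψ) := by
      filter_upwards [(if_open hp).mem_nhds hu] with w hw
      exact (key w hw).2.symm
    have h1 : fderiv ℝ ψ u = (fderiv ℝ Λ ((P ∘ ψ) u)).comp (fderiv ℝ (P ∘ ψ) u) := by
      rw [he.fderiv_eq]
      exact fderiv_comp u (hΛ.differentiable (by simp) _) hd
    have h2 := if_imm hp hu
    rw [h1] at h2
    exact Function.Injective.of_comp (f := fderiv ℝ Λ ((P ∘ ψ) u)) h2
  · ext y
    constructor
    · rintro ⟨u, hu, rfl⟩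
      refine ⟨(key u hu).1.1, (key u hu).1.2, ?_⟩
      show Λ (P (ψ u)) ∈ Oψ
      rw [(key u hu).2]
      exact (hψe ▸ mem_image_of_mem ψ hu : ψ u ∈ X ∩ Oψ).2
    · rintro ⟨hyM, hyG, hyψ⟩
      have h1 : Λ y ∈ X ∩ O := him ▸ mem_image_of_mem Λ ⟨hyM, hyG⟩
      have h2 : Λ y ∈ ψ '' U := hψe ▸ ⟨h1.1, hyψ⟩
      obtain ⟨u, hu, hue⟩ := h2
      exact ⟨u, hu, by show P (ψ u) = y; rw [hue, hPΛ]⟩
  · refine (if_contInv hp).comp hΛ.continuous.continuousOn ?_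
    rintro _ ⟨u, hu, rfl⟩
    show Λ (P (ψ u)) ∈ ψ '' U
    rw [(key u hu).2]
    exact mem_image_of_mem ψ hu
  · intro u hu
    show Function.invFunOn ψ U (Λ (P (ψ u))) = u
    rw [(key u hu).2, if_leftInv hp hu]

/-- lifting of a parametrisation of `M` through a given point of `X` -/
theorem ucs_lift (hS : Sheeted X M P) {φ : E n → V} {U : Set (E n)} (hp : IsParam M φ U) {u : E n}
    (hu : u ∈ U) {x : V'} (hx : x ∈ X) (hxu : P x = φ u) :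
    ∃ (ψ : E n → V') (W : Set (E n)), IsOpen W ∧ u ∈ W ∧ W ⊆ U ∧ IsParam X ψ W ∧ ψ u = x ∧
      ∀ w ∈ W, P (ψ w) = φ w := by
  obtain ⟨G, hG, hyG, -, hs⟩ := hS.sheet (φ u) (if_mem hp hu)
  obtain ⟨Λ, O, h1, h2, h3, h4, h5⟩ := hs x hx (hxu ▸ hyG)
  have hW : IsOpen (U ∩ φ ⁻¹' G) := (if_continuousOn hp).isOpen_inter_preimage (if_open hp) hG
  refine ⟨Λ ∘ φ, U ∩ φ ⁻¹' G, hW, ⟨hu, hyG⟩, inter_subset_left,
    ucs_up h1 h2 h4 h5 (if_mono hp hW inter_subset_left) ?_, ?_, fun w _ => h2 _⟩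
  · rintro _ ⟨w, hw, rfl⟩
    exact hw.2
  · show Λ (φ u) = x
    rw [← hxu, h3]

theorem ucm_mfd (hM : IsMfd n M) (hS : Sheeted X M P) : IsMfd n X := by
  intro x hx
  obtain ⟨φ, U, hp, u, hu, hue⟩ := hM (P x) (hS.mapsTo hx)
  obtain ⟨ψ, W, -, huW, -, hpW, hψu, -⟩ := ucs_lift hS hp hu hx hue.symm
  exact ⟨ψ, W, hpW, u, huW, hψu⟩

theorem ucm_cov (hS : Sheeted X M P) : IsCov n X M P where
  mapsTo := hS.mapsTo
  surj := by
    obtain ⟨K, -, hKX, hKM⟩ := hS.cpt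
    exact hKM.mono hKX Subset.rfl
  down := by
    intro ψ U hp u hu
    have hx := if_mem hp hu
    obtain ⟨G, hG, hyG, -, hs⟩ := hS.sheet (P (ψ u)) (hS.mapsTo hx)
    obtain ⟨Λ, O, h1, h2, h3, h4, h5⟩ := hs (ψ u) hx hyG
    have hxO : ψ u ∈ O := by
      have : Λ (P (ψ u)) ∈ X ∩ O := h5 ▸ mem_image_of_mem Λ ⟨hS.mapsTo hx, hyG⟩
      rw [h3] at this
      exact this.2
    have hW : IsOpen (U ∩ ψ ⁻¹' O) := (if_continuousOn hp).isOpen_inter_preimage (if_open hp) h4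
    refine ⟨U ∩ ψ ⁻¹' O, hW, ⟨hu, hxO⟩, inter_subset_left,
      ucs_down h1 h2 hG h5 (if_mono hp hW inter_subset_left) ?_⟩
    rintro _ ⟨w, hw, rfl⟩
    exact hw.2
  up := fun φ U hp u hu x hx hxu => ucs_lift hS hp hu hx hxu

end Claimed.Agent.R314
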