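import Claimed.Agent.R314.Iso
import Claimed.Agent.R314.LocIso

/-!
# Row 314, block UC, package UCM (architect + prover helper274), leaf UCM-5 (PROVED, no sorry): homeomorphisms of `X` over `M` are isometries (`IsIso`)

PLAN `ucm_deck_locI`.  Let `IsParam X ψ U`.  KEY (local form): for `u ∈ U` there are `ψ'`, `W'` open, `u ∈ W' ⊆ U`, `IsParam X ψ' W'` and `γ ∘ ψ =ᶠ[𝓝 u] ψ'`:
`hcov.down ψ U _ u hu` gives `W` with `IsParam M (P ∘ ψ) W`; `hcov.up (P ∘ ψ) W _ u huW (γ (ψ u)) _ _` gives `ψ'`, `W'` with `ψ' u = γ (ψ u)`, `P (ψ' w) = P (ψ w)`;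
`ψ' '' W' = X ∩ O'` (`if_image`); `γ ∘ ψ` is continuous at `u`, so eventually `γ (ψ w) ∈ X ∩ O'`, i.e. `γ (ψ w) = ψ' w'`, `w' ∈ W'`; apply `P`: `P (ψ w) = P (ψ w')`, `InjOn (P ∘ ψ) W` gives `w = w'`.
Hence `ContDiffOn`, injectivity of `fderiv` (`Filter.EventuallyEq.fderiv_eq`).  `InjOn`: `h4`.  Image: `(γ ∘ ψ) '' U = X ∩ γ' ⁻¹' O₁` is relatively open (`continuousOn_iff'` for `γ'`).
Inverse: `invFunOn (γ ∘ ψ) U y = invFunOn ψ U (γ' y)` on the image.   `cm_eq`: `cm_pullL` (`R314/LocIso.lean`) twice and `P ∘ γ ∘ ψ = P ∘ ψ` on the open `U`.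
`ucm_deck_ext`: `γ z = if h : z ∈ X then e ⟨z, h⟩ else z`, `γ'` with `e.symm`; `continuousOn_iff_continuous_restrict`.
-/

set_option autoImplicit false
set_option linter.unusedSectionVars false
open scoped ContDiff Topology
open Set Claims.C0499 Claimed.Agent.R315

namespace Claimed.Agent.R314

variable {V : Type} [NormedAddCommGroup V] [NormedSpace ℝ V] [FiniteDimensional ℝ V]
variable {V' : Type} [NormedAddCommGroup V'] [NormedSpace ℝ V'] [FiniteDimensional ℝ V']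
variable {n : ℕ} {M : Set V} {X : Set V'} {P : V' →L[ℝ] V}

/-- local form of a deck map: near `u` the map `γ ∘ ψ` is a parametrisation of `X`. -/
theorem ucm_deck_key (hcov : IsCov n X M P) {γ : V' → V'} (h1 : ContinuousOn γ X)
    (h2 : MapsTo γ X X) (h3 : ∀ x ∈ X, P (γ x) = P x) {ψ : E n → V'} {U : Set (E n)}
    (hp : IsParam X ψ U) {u : E n} (hu : u ∈ U) :
    ∃ (ψ' : E n → V') (W' : Set (E n)), IsParam X ψ' W' ∧ u ∈ W' ∧ (γ ∘ ψ) =ᶠ[𝓝 u] ψ' := by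
  obtain ⟨W, hW, huW, hWU, hpW⟩ := hcov.down ψ U hp u hu
  have hx : γ (ψ u) ∈ X := h2 (if_mem hp hu)
  obtain ⟨ψ', W', hW', huW', hW'W, hp', hψ'u, hPψ'⟩ :=
    hcov.up (P ∘ ψ) W hpW u huW (γ (ψ u)) hx (h3 _ (if_mem hp hu))
  refine ⟨ψ', W', hp', huW', ?_⟩
  obtain ⟨O', hO', he⟩ := if_image hp'
  have hmem : γ (ψ u) ∈ O' := by
    have : ψ' u ∈ X ∩ O' := he ▸ mem_image_of_mem ψ' huW'
    rw [← hψ'u]
    exact this.2
  have hcont : ContinuousAt (γ ∘ ψ) u := by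
    have : ContinuousOn (γ ∘ ψ) U := h1.comp (if_continuousOn hp) fun w hw => if_mem hp hw
    exact this.continuousAt ((if_open hp).mem_nhds hu)
  filter_upwards [hcont (hO'.mem_nhds hmem), hW.mem_nhds huW] with w hw1 hw2
  have hwX : γ (ψ w) ∈ X ∩ O' := ⟨h2 (if_mem hp (hWU hw2)), hw1⟩
  rw [← he] at hwX
  obtain ⟨w', hw', hww'⟩ := hwX
  have e1 : (P ∘ ψ) w' = (P ∘ ψ) w := by
    rw [← hPψ' w' hw', hww']
    exact h3 _ (if_mem hp (hWU hw2))
  have e2 : w' = w := if_injOn hpW (hW'W hw') hw2 e1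
  rw [Function.comp_apply, ← hww', e2]

theorem ucm_deck_locI (_hX : IsMfd n X) (hcov : IsCov n X M P) (g : Ten V)
    {γ γ' : V' → V'} (h1 : ContinuousOn γ X) (h2 : MapsTo γ X X) (h3 : ∀ x ∈ X, P (γ x) = P x)
    (h1' : ContinuousOn γ' X) (h2' : MapsTo γ' X X) (h4 : ∀ x ∈ X, γ' (γ x) = x)
    (h5 : ∀ x ∈ X, γ (γ' x) = x) : IsLocI n X (if_pullL P g) γ := by
  have hsm : ∀ (ψ : E n → V') (U : Set (E n)), IsParam X ψ U → ∀ u ∈ U,
      ContDiffAt ℝ ∞ (γ ∘ ψ) u := by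
    intro ψ U hp u hu
    obtain ⟨ψ', W', hp', huW', hev⟩ := ucm_deck_key hcov h1 h2 h3 hp hu
    exact (if_contDiffAt hp' huW').congr_of_eventuallyEq hev
  refine ⟨fun ψ U hp => ?_, fun ψ U hp u hu => ?_⟩
  · have hinj : InjOn (γ ∘ ψ) U := by
      intro a ha b hb hab
      have h6 := congrArg γ' hab
      simp only [Function.comp_apply] at h6
      rw [h4 _ (if_mem hp ha), h4 _ (if_mem hp hb)] at h6
      exact if_injOn hp ha hb h6
    refine ⟨if_open hp, fun u hu => (hsm ψ U hp u hu).contDiffWithinAt, fun u hu => ?_, hinj, ?_, ?_⟩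
    · obtain ⟨ψ', W', hp', huW', hev⟩ := ucm_deck_key hcov h1 h2 h3 hp hu
      rw [hev.fderiv_eq]
      exact if_imm hp' huW'
    · obtain ⟨O₁, hO₁, he⟩ := if_image hp
      obtain ⟨O, hO, hOe⟩ := (continuousOn_iff'.1 h1') O₁ hO₁
      refine ⟨O, hO, ?_⟩
      ext y
      constructor
      · rintro ⟨w, hw, rfl⟩
        have hxw := if_mem hp hw
        refine ⟨h2 hxw, ?_⟩
        have h6 : γ (ψ w) ∈ γ' ⁻¹' O₁ ∩ X :=
          ⟨by rw [mem_preimage, h4 _ hxw]; exact (he ▸ mem_image_of_mem ψ hw : ψ w ∈ X ∩ O₁).2,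
            h2 hxw⟩
        rw [hOe] at h6
        exact h6.1
      · rintro ⟨hyX, hyO⟩
        have h6 : y ∈ γ' ⁻¹' O₁ ∩ X := by rw [hOe]; exact ⟨hyO, hyX⟩
        have h7 : γ' y ∈ X ∩ O₁ := ⟨h2' hyX, h6.1⟩
        rw [← he] at h7
        obtain ⟨w, hw, hwe⟩ := h7
        exact ⟨w, hw, by rw [Function.comp_apply, hwe, h5 y hyX]⟩
    · have heq : EqOn (Function.invFunOn (γ ∘ ψ) U) (Function.invFunOn ψ U ∘ γ')
          ((γ ∘ ψ) '' U) := by
        rintro _ ⟨w, hw, rfl⟩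
        rw [hinj.leftInvOn_invFunOn hw]
        simp only [Function.comp_apply]
        rw [h4 _ (if_mem hp hw), if_leftInv hp hw]
      refine ContinuousOn.congr ?_ heq
      refine (if_contInv hp).comp (h1'.mono ?_) ?_
      · rintro _ ⟨w, hw, rfl⟩
        exact h2 (if_mem hp hw)
      · rintro _ ⟨w, hw, rfl⟩
        simp only [Function.comp_apply]
        rw [h4 _ (if_mem hp hw)]
        exact mem_image_of_mem ψ hw
  · have hd1 : DifferentiableAt ℝ (γ ∘ ψ) u := (hsm ψ U hp u hu).differentiableAt (by simp)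
    have e : (P ∘ (γ ∘ ψ)) =ᶠ[𝓝 u] (P ∘ ψ) := by
      filter_upwards [(if_open hp).mem_nhds hu] with w hw
      exact h3 _ (if_mem hp hw)
    rw [← cm_pullL P g hd1, ← cm_pullL P g (if_differentiableAt hp hu)]
    ext a b
    simp only [cm, Matrix.of_apply, e.fderiv_eq, e.self_of_nhds]

theorem ucm_deck_iso (hX : IsMfd n X) (hcov : IsCov n X M P) (g : Ten V)
    {γ γ' : V' → V'} (h1 : ContinuousOn γ X) (h2 : MapsTo γ X X) (h3 : ∀ x ∈ X, P (γ x) = P x)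
    (h1' : ContinuousOn γ' X) (h2' : MapsTo γ' X X) (h4 : ∀ x ∈ X, γ' (γ x) = x)
    (h5 : ∀ x ∈ X, γ (γ' x) = x) : IsIso n X (if_pullL P g) γ := by
  refine ⟨ucm_deck_locI hX hcov g h1 h2 h3 h1' h2' h4 h5, γ',
    ucm_deck_locI hX hcov g h1' h2' (fun x hx => ?_) h1 h2 h5 h4, h4, h5⟩
  have := h3 (γ' x) (h2' hx)
  rw [h5 x hx] at this
  exact this.symm

/-- a homeomorphism of the subtype over `M`, extended by the identity. -/
theorem ucm_deck_ext (hX : IsMfd n X) (hcov : IsCov n X M P) (g : Ten V) (e : X ≃ₜ X)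
    (he : ∀ x : X, P (e x) = P x) :
    ∃ γ : V' → V', IsIso n X (if_pullL P g) γ ∧ ∀ x : X, γ x = e x := by
  classical
  have key : ∀ f : X ≃ₜ X, ∃ γ : V' → V', ContinuousOn γ X ∧ MapsTo γ X X ∧
      ∀ x : X, γ x = f x := by
    intro f
    have h3 : ∀ x : X, (fun z : V' => if h : z ∈ X then (f ⟨z, h⟩ : V') else z) x = f x := by
      intro x
      simp only [x.2, dif_pos, Subtype.coe_eta]
    refine ⟨fun z : V' => if h : z ∈ X then (f ⟨z, h⟩ : V') else z, ?_, fun z hz => ?_, h3⟩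
    · rw [continuousOn_iff_continuous_domRestrict]
      have : X.domRestrict (fun z : V' => if h : z ∈ X then (f ⟨z, h⟩ : V') else z) =
          fun x : X => (f x : V') := funext h3
      rw [this]
      exact continuous_subtype_val.comp f.continuous
    · rw [h3 ⟨z, hz⟩]
      exact (f ⟨z, hz⟩).2
  obtain ⟨γ, a1, a2, a3⟩ := key e
  obtain ⟨γ', b1, b2, b3⟩ := key e.symm
  refine ⟨γ, ucm_deck_iso hX hcov g a1 a2 (fun x hx => ?_) b1 b2 (fun x hx => ?_) fun x hx => ?_, a3⟩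
  · rw [a3 ⟨x, hx⟩]
    exact he ⟨x, hx⟩
  · rw [a3 ⟨x, hx⟩, b3 (e ⟨x, hx⟩), e.symm_apply_apply]
  · rw [b3 ⟨x, hx⟩, a3 (e.symm ⟨x, hx⟩), e.apply_symm_apply]

end Claimed.Agent.R314
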