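import Claimed.Agent.R314.UC.MetSheet
import Claimed.Agent.R314.UC.MetDeck

/-!
# Row 314, block UC, package UCM (architect helper274), leaf UCM-6: cocompactness of the deck maps (no metric, no curve lifting)

PLAN.  For `m ∈ M`: `O_m` from `ucm_sheet_set`, `r_m > 0` with `closedBall m r_m ⊆ O_m`; `M ⊆ ⋃ ball m r_m`, finite subcover `m_j` (`IsCompact.elim_nhds_subcover`);
`a_j ∈ X` with `P a_j = m_j` (`hcov.surj`), section `s_j`; `K = ⋃_j s_j '' (M ∩ closedBall m_j r_j)`: compact, `⊆ X`.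
For `x ∈ X`: `P x ∈ closedBall m_j r_j`, `k = s_j (P x) ∈ K`, `P k = P x`; `hdeck ⟨x,_⟩ ⟨k,_⟩` and `ucm_deck_ext`.
-/

set_option autoImplicit false
set_option linter.unusedSectionVars false
open scoped ContDiff Topology
open Set Claims.C0499 Claimed.Agent.R315

namespace Claimed.Agent.R314

variable {n N N' : ℕ} {M : Set (E N)} {X : Set (E N')} {P : E N' →L[ℝ] E N}

theorem ucm_cocpt (hc : IsCompact M) (hX : IsMfd n X) (hcov : IsCov n X M P)
    (hp : IsCoveringMap (hcov.mapsTo.restrict P X M))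
    (hdeck : ∀ x y : X, P x = P y → ∃ e : X ≃ₜ X, (∀ z : X, P (e z) = P z) ∧ e x = y)
    (g : Ten (E N)) :
    ∃ K : Set (E N'), IsCompact K ∧ K ⊆ X ∧
      ∀ x ∈ X, ∃ γ : E N' → E N', IsIso n X (if_pullL P g) γ ∧ γ x ∈ K := by
  have key : ∀ m ∈ M, ∃ (r : ℝ) (s : E N → E N'), 0 < r ∧ ContinuousOn s (M ∩ Metric.closedBall m r) ∧
      MapsTo s (M ∩ Metric.closedBall m r) X ∧ ∀ u ∈ M ∩ Metric.closedBall m r, P (s u) = u := by
    intro m hm
    obtain ⟨O, hO, hmO, hsec⟩ := ucm_sheet_set hcov.mapsTo hp hm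
    obtain ⟨r, hr, hrO⟩ := Metric.nhds_basis_closedBall.mem_iff.1 (hO.mem_nhds hmO)
    obtain ⟨a, haX, hPa⟩ := hcov.surj hm
    obtain ⟨s, hs1, hs2, hs3, -, -⟩ := hsec a haX (by rw [hPa]; exact hmO)
    have hsub : M ∩ Metric.closedBall m r ⊆ M ∩ O := inter_subset_inter_right _ hrO
    exact ⟨r, s, hr, hs1.mono hsub, hs2.mono_left hsub, fun u hu => hs3 u (hsub hu)⟩
  choose! r s hr hs1 hs2 hs3 using key
  obtain ⟨t, htM, htc⟩ := hc.elim_nhds_subcover (fun m => Metric.ball m (r m))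
    (fun m hm => Metric.ball_mem_nhds m (hr m hm))
  refine ⟨⋃ m ∈ t, s m '' (M ∩ Metric.closedBall m (r m)), ?_, ?_, ?_⟩
  · exact t.isCompact_biUnion fun m hm =>
      (hc.inter_right Metric.isClosed_closedBall).image_of_continuousOn (hs1 m (htM m hm))
  · intro y hy
    simp only [mem_iUnion] at hy
    obtain ⟨m, hm, u, hu, rfl⟩ := hy
    exact hs2 m (htM m hm) hu
  · intro x hx
    have hPx : P x ∈ M := hcov.mapsTo hx
    have h1 := htc hPx
    simp only [mem_iUnion] at h1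
    obtain ⟨m, hm, hxm⟩ := h1
    have hu : P x ∈ M ∩ Metric.closedBall m (r m) := ⟨hPx, Metric.ball_subset_closedBall hxm⟩
    have hkX : s m (P x) ∈ X := hs2 m (htM m hm) hu
    have hPk : P (s m (P x)) = P x := hs3 m (htM m hm) _ hu
    obtain ⟨e, he1, he2⟩ := hdeck ⟨x, hx⟩ ⟨s m (P x), hkX⟩ hPk.symm
    obtain ⟨γ, hγ1, hγ2⟩ := ucm_deck_ext hX hcov g e he1
    refine ⟨γ, hγ1, ?_⟩
    have h2 : γ x = s m (P x) := by
      have := hγ2 ⟨x, hx⟩
      rw [he2] at this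
      exact this
    rw [h2]
    simp only [mem_iUnion]
    exact ⟨m, hm, P x, hu, rfl⟩

end Claimed.Agent.R314
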