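import Claimed.Agent.R314.Iso

/-!
# Row 314, block UC, package UCM (architect helper274), leaf UCM-4: uniformly small compact balls ⟹ all closed balls are compact (generic)

PLAN.  STEP: `cb Y G x R` compact ⟹ `cb Y G x (R + η/2)` compact.  Cover `K = cb x R` by finitely many `{z | rdist y_j z < η/4}`, `y_j ∈ K`
(neighbourhoods within `Y`; `IsCompact.elim_nhdsWithin_subcover`).  CLAIM `cb x (R + η/2) ⊆ ⋃_j cb y_j η`:  `z` with `rdist x z ≤ R + η/2`; if `rdist x z ≤ R` then `z ∈ K`;
otherwise take an admissible `c` from `x` to `z` with `if_len G c < R + η/2 + η/4` (`if_exists_len_lt`), `t` with `rdist x (c t) = R` (`intermediate_value_Icc`, continuity of `rdist x ∘ c` on `[0,1]`; needs `0 ≤ R`: for `R < 0` the ball is empty and one starts the induction at `R = 0` resp. uses `cb x η`),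
`rdist (c t) z ≤ if_len G c - R < 3η/4` (`if_rdist_add_le_len`), `c t ∈ K`, triangle inequality.
The union `K'` is compact, `cb x R' = K' ∩ rdist x ⁻¹' Iic R'` is closed in it (`ContinuousOn.preimage_isClosed_of_isClosed`).
Then induction on `k`: `cb x (k * (η/2))` is compact; every `cb x R` is a closed subset of one of them.
-/

set_option autoImplicit false
set_option linter.unusedSectionVars false
open scoped ContDiff Topology
open Set Claims.C0499 Claimed.Agent.R315

namespace Claimed.Agent.R314

theorem ucm_proper_of_small {n : ℕ} {V : Type} [NormedAddCommGroup V] [NormedSpace ℝ V]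
    [FiniteDimensional ℝ V] {Y : Set V} {G : Ten V} (hY : IsMfd n Y) (hconn : IsConnected Y)
    (hG : IsMetricOn n Y G) {η : ℝ} (hη : 0 < η) (h : ∀ a ∈ Y, IsCompact (cb Y G a η)) :
    IsProperOn Y G := by
  have hT : IsTenOn n Y G := (if_isMetricOn_iff.1 hG).1
  have hpc : IsPreconnected Y := hconn.isPreconnected
  have j : ∀ {a b : V}, a ∈ Y → b ∈ Y → if_Join Y a b := fun ha hb => if_join_of_connected hY hpc ha hb
  have hcont : ∀ {a : V}, a ∈ Y → ContinuousOn (rdist Y G a) Y := fun ha => if_rdist_continuousOn hY hpc hT ha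
  have hsubY : ∀ (a : V) (R : ℝ), cb Y G a R ⊆ Y := fun a R z hz => hz.1
  -- closed subsets
  have hmono : ∀ {x : V}, x ∈ Y → ∀ {K : Set V}, IsCompact K → K ⊆ Y → ∀ R : ℝ, cb Y G x R ⊆ K →
      IsCompact (cb Y G x R) := by
    intro x hx K hK hKY R hsub
    have hcl : IsClosed (K ∩ rdist Y G x ⁻¹' Iic R) :=
      ((hcont hx).mono hKY).preimage_isClosed_of_isClosed hK.isClosed isClosed_Iic
    have he : cb Y G x R = K ∩ rdist Y G x ⁻¹' Iic R := by
      ext z
      constructor
      · intro hz
        exact ⟨hsub hz, hz.2⟩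
      · rintro ⟨hz1, hz2⟩
        exact ⟨hKY hz1, hz2⟩
    rw [he]
    exact hK.of_isClosed_subset hcl inter_subset_left
  -- one step
  have hstep : ∀ {x : V}, x ∈ Y → ∀ R : ℝ, 0 ≤ R → IsCompact (cb Y G x R) →
      IsCompact (cb Y G x (R + η / 2)) := by
    intro x hx R hR hK
    obtain ⟨t, htK, htc⟩ := hK.elim_nhdsWithin_subcover (fun y => {z | rdist Y G y z < η / 4}) (by
      intro y hy
      have h1 : ContinuousWithinAt (rdist Y G y) (cb Y G x R) y :=
        ((hcont hy.1).mono (hsubY x R)) y hy
      refine h1.preimage_mem_nhdsWithin (Iio_mem_nhds ?_)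
      rw [if_rdist_self G hy.1]
      positivity)
    have hK' : IsCompact (⋃ y ∈ t, cb Y G y η) :=
      t.isCompact_biUnion fun y hy => h y (htK y hy).1
    refine hmono hx hK' ?_ _ ?_
    · intro z hz
      simp only [mem_iUnion] at hz
      obtain ⟨y, _, hz⟩ := hz
      exact hz.1
    · intro z hz
      simp only [mem_iUnion]
      by_cases hzR : rdist Y G x z ≤ R
      · have h1 := htc (show z ∈ cb Y G x R from ⟨hz.1, hzR⟩)
        simp only [mem_iUnion] at h1
        obtain ⟨y, hy, hyz⟩ := h1
        have hyz' : rdist Y G y z < η / 4 := hyz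
        exact ⟨y, hy, hz.1, by linarith⟩
      · push Not at hzR
        have hz2 : rdist Y G x z ≤ R + η / 2 := hz.2
        obtain ⟨c, hc, hc0, hc1, hlen⟩ := if_exists_len_lt (g := G) (j hx hz.1)
          (show rdist Y G x z < R + η / 2 + η / 4 by linarith)
        have hf : ContinuousOn (fun s => rdist Y G x (c s)) (Icc (0 : ℝ) 1) :=
          (hcont hx).comp hc.1.continuous.continuousOn fun s hs => hc.2 s hs
        have hmem : R ∈ Icc (rdist Y G x (c 0)) (rdist Y G x (c 1)) := by
          rw [hc0, hc1, if_rdist_self G hx]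
          exact ⟨hR, hzR.le⟩
        obtain ⟨s, hs, hsR⟩ := intermediate_value_Icc zero_le_one hf hmem
        have hsR' : rdist Y G x (c s) = R := hsR
        have hcsY : c s ∈ Y := hc.2 s hs
        have h2 := if_rdist_add_le_len hY hT hc hs
        rw [hc0, hc1, hsR'] at h2
        have h1 := htc (show c s ∈ cb Y G x R from ⟨hcsY, hsR'.le⟩)
        simp only [mem_iUnion] at h1
        obtain ⟨y, hy, hyz⟩ := h1
        have hyz' : rdist Y G y (c s) < η / 4 := hyz
        have h3 := if_rdist_tri hY hT (j (htK y hy).1 hcsY) (j hcsY hz.1)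
        exact ⟨y, hy, hz.1, by linarith⟩
  intro x hx R
  have hind : ∀ k : ℕ, IsCompact (cb Y G x (k * (η / 2))) := by
    intro k
    induction k with
    | zero =>
      refine hmono hx (h x hx) (hsubY x η) _ fun z hz => ⟨hz.1, ?_⟩
      have : rdist Y G x z ≤ ((0 : ℕ) : ℝ) * (η / 2) := hz.2
      simp only [Nat.cast_zero, zero_mul] at this
      linarith
    | succ k ih =>
      have := hstep hx _ (by positivity) ih
      have e : ((k + 1 : ℕ) : ℝ) * (η / 2) = (k : ℝ) * (η / 2) + η / 2 := by
        push_cast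
        ring
      rw [e]
      exact this
  obtain ⟨k, hk⟩ := exists_nat_ge (R / (η / 2))
  refine hmono hx (hind k) (hsubY x _) R fun z hz => ⟨hz.1, ?_⟩
  have h1 : rdist Y G x z ≤ R := hz.2
  have h2 : R ≤ k * (η / 2) := by
    rwa [div_le_iff₀ (by positivity)] at hk
  linarith

end Claimed.Agent.R314
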