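import Claimed.Agent.R314.UC.MetSmall
import Claimed.Agent.R314.UC.MetProper
import Claimed.Agent.R314.UC.MetCocpt

/-!
# Row 314, block UC, package UCM (helper274; chief helper266): the metric half of the universal cover

INPUT: `M ⊆ E N` compact `n`-manifold, `X ⊆ E N'` closed connected `n`-manifold, `P` linear with `IsCov n X M P`, the SUBTYPE map `X → M` is a covering map,
the deck maps act transitively on the fibres (`hdeck`, from `ucf_deck` of UCF), `Fill k X`.
EXIT `ucm_main` : `UCont n X (if_pullL P g)` for every metric `g` on `M`.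

Leaves: `UC/MetSheet.lean` (UCM-1: sheets), `UC/MetUnif.lean` (UCM-2: uniform radius), `UC/MetSmall.lean` (UCM-3: small balls are compact), `UC/MetProper.lean` (UCM-4: all balls are compact),
`UC/MetDeck.lean` (UCM-5: deck maps are `IsIso`), `UC/MetCocpt.lean` (UCM-6: cocompactness).      Prefix `ucm_`.
-/

set_option autoImplicit false
set_option linter.unusedSectionVars false
open scoped ContDiff Topology
open Set Claims.C0499 Claimed.Agent.R315

namespace Claimed.Agent.R314

variable {n N N' : ℕ} {M : Set (E N)} {X : Set (E N')} {P : E N' →L[ℝ] E N}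

/-- **exit of UCM.** -/
theorem ucm_main (hc : IsCompact M) (hM : IsMfd n M) (hXc : IsClosed X) (hX : IsMfd n X)
    (hXconn : IsConnected X) (hcov : IsCov n X M P)
    (hp : IsCoveringMap (hcov.mapsTo.restrict P X M))
    (hdeck : ∀ x y : X, P x = P y → ∃ e : X ≃ₜ X, (∀ z : X, P (e z) = P z) ∧ e x = y)
    (hfill : ∀ k, Fill k X) {g : Ten (E N)} (hg : IsMetricOn n M g) :
    UCont n X (if_pullL P g) := by
  have hι : LocIso n X (if_pullL P g) M g P := by
    refine locIso_pullL P g fun x hx => ?_
    obtain ⟨ψ, U, hp', u, hu, rfl⟩ := hX x hx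
    obtain ⟨W, hW, huW, hWU, hpW⟩ := hcov.down ψ U hp' u hu
    exact ⟨ψ, W, if_mono hp' hW hWU, ⟨u, huW, rfl⟩, hpW⟩
  have hmet : IsMetricOn n X (if_pullL P g) := hι.metric hg
  obtain ⟨η, hη, hsmall⟩ := ucm_small hc hM hXc hX hXconn hcov hp hg
  exact ⟨hX, hXc, hXconn, hmet, ucm_proper_of_small hX hXconn hmet hη hsmall, hfill,
    ucm_cocpt hc hX hcov hp hdeck g⟩

end Claimed.Agent.R314
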