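import Claimed.Agent.R314.UC.Emb
import Claimed.Agent.R314.UC.Lift
import Claimed.Agent.R314.UC.Met
import Claimed.Agent.R314.UC.Metric

/-!
# Row 314, block UC (chief helper266; UCM: helper274; UCF: helper257): the universal cover as a closed submanifold

EXIT CONTRACT `uc_main`.  `M` compact connected `n`-manifold in `E N` with `Fill k M` for `k ≥ 3` (`π_j = 0`, `j ≥ 2`).
Then there are `X ⊆ E N'` and a linear `P : E N' → E N` with `IsCov n X M P` such that for EVERY metric `g` on `M`
`(X, P^* g)` is `UCont`.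

Proved here from: `uct_main` (`UC/Emb.lean`: construction, `Sheeted`), `ucm_mfd`, `ucm_cov` (`UC/Met.lean`), `ucf_deck_abs`, `ucf_fill` (`UC/Fill.lean`, `UC/Lift.lean`),
`uc_locPathConn` (`UC/Loc.lean`), `ucm_main` (`UC/Metric.lean`).  Interface: `UC/Defs.lean`.
-/

set_option autoImplicit false
open scoped ContDiff Topology
open Set Claims.C0499 Claimed.Agent.R315

namespace Claimed.Agent.R314

theorem uc_main {n N : ℕ} {M : Set (E N)} (hc : IsCompact M) (hconn : IsConnected M) (hM : IsMfd n M)
    (hfill : ∀ k, 3 ≤ k → Fill k M) :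
    ∃ (N' : ℕ) (X : Set (E N')) (P : E N' →L[ℝ] E N), IsCov n X M P ∧
      ∀ g : Ten (E N), IsMetricOn n M g → UCont n X (if_pullL P g) := by
  obtain ⟨N', X, P, hS, hcov, hsc⟩ := uct_main hc hconn hM
  have hX : IsMfd n X := ucm_mfd hM hS
  have hC : IsCov n X M P := ucm_cov hS
  have hlp : LocallyPathConnectedSpace X := uc_locPathConn hX
  have hcX : IsConnected X := isConnected_iff_connectedSpace.2 inferInstance
  refine ⟨N', X, P, hC, fun g hg => ?_⟩
  refine ucm_main hc hM hS.closed hX hcX hC hcov (fun x y hxy => ?_)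
    (ucf_fill hS.mapsTo hcov hsc hfill) hg
  obtain ⟨γ, hγp, hγx⟩ := ucf_deck_abs hcov (x := x) (y := y) (Subtype.ext hxy)
  exact ⟨γ, fun z => congrArg Subtype.val (congrFun hγp z), hγx⟩

end Claimed.Agent.R314
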