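import Mathlib

/-!
# Row 314, block UC, half UCT (helper266): existence of a simply connected covering with countable fibre (Mathlib only)

Copy (fresh names) of the author's files `UCoverTop`, `UCoverCountable` of the second list (result 046):
* the total space of a `FiberBundleCore` with discrete fibre `π₁(X, x₀)` is a simply connected covering space;
* Poincare-Volterra: a connected covering space of a second countable space is second countable.
Exit: `uc_abs`.
-/

set_option autoImplicit false

namespace Claimed.Agent.R314

section top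

open Set Filter Topology unitInterval

noncomputable section

namespace UCover

universe u

variable {X : Type u} [TopologicalSpace X]

/-! ## Algebra of homotopy classes of paths -/

section Algebra

variable {a b c d : X}

theorem symm_trans_rev (p : Path.Homotopic.Quotient a b) (q : Path.Homotopic.Quotient b c) :
    (p.trans q).symm = q.symm.trans p.symm := by
  induction p using Path.Homotopic.Quotient.ind with | mk p =>
  induction q using Path.Homotopic.Quotient.ind with | mk q =>
  simp only [← Path.Homotopic.Quotient.mk_trans, ← Path.Homotopic.Quotient.mk_symm, Path.trans_symm]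

@[simp]
theorem trans_symm_cancel_left (p : Path.Homotopic.Quotient a b) (q : Path.Homotopic.Quotient a c) :
    p.trans (p.symm.trans q) = q := by
  rw [← Path.Homotopic.Quotient.trans_assoc, Path.Homotopic.Quotient.trans_symm,
    Path.Homotopic.Quotient.refl_trans]

@[simp]
theorem symm_trans_cancel_left (p : Path.Homotopic.Quotient a b) (q : Path.Homotopic.Quotient b c) :
    p.symm.trans (p.trans q) = q := by
  rw [← Path.Homotopic.Quotient.trans_assoc, Path.Homotopic.Quotient.symm_trans,
    Path.Homotopic.Quotient.refl_trans]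

theorem trans_right_cancel {p p' : Path.Homotopic.Quotient a b} (q : Path.Homotopic.Quotient b c)
    (h : p.trans q = p'.trans q) : p = p' := by
  have := congrArg (fun r => r.trans q.symm) h
  simpa using this

theorem trans_left_cancel (p : Path.Homotopic.Quotient a b) {q q' : Path.Homotopic.Quotient b c}
    (h : p.trans q = p.trans q') : q = q' := by
  have := congrArg (fun r => p.symm.trans r) h
  simpa using this

theorem map_trans {Y : Type*} [TopologicalSpace Y] (p : Path.Homotopic.Quotient a b)
    (q : Path.Homotopic.Quotient b c) (f : C(X, Y)) :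
    (p.trans q).map f = (p.map f).trans (q.map f) := by
  induction p using Path.Homotopic.Quotient.ind with | mk p =>
  induction q using Path.Homotopic.Quotient.ind with | mk q =>
  simp only [← Path.Homotopic.Quotient.mk_trans, ← Path.Homotopic.Quotient.mk_map, Path.map_trans]

theorem map_refl {Y : Type*} [TopologicalSpace Y] (f : C(X, Y)) :
    (Path.Homotopic.Quotient.refl a).map f = Path.Homotopic.Quotient.refl (f a) := by
  rw [← Path.Homotopic.Quotient.mk_refl, ← Path.Homotopic.Quotient.mk_map,
    ← Path.Homotopic.Quotient.mk_refl]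
  exact congrArg _ (by ext; rfl)

end Algebra

/-- The unique class of paths between two points of a simply connected space. -/
def uniq {Y : Type*} [TopologicalSpace Y] [SimplyConnectedSpace Y] (y y' : Y) :
    Path.Homotopic.Quotient y y' :=
  Path.Homotopic.Quotient.mk (PathConnectedSpace.somePath y y')

theorem simplyConnectedSpace_unitInterval : SimplyConnectedSpace I :=
  have : ContractibleSpace I := (convex_Icc (0 : ℝ) 1).contractibleSpace ⟨0, by simp⟩
  inferInstance

theorem locallyPathConnectedSpace_unitInterval : LocallyPathConnectedSpace I :=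
  (convex_Icc (0 : ℝ) 1).locallyPathConnectedSpace

attribute [local instance] simplyConnectedSpace_unitInterval locallyPathConnectedSpace_unitInterval

/-- The identity path of the unit interval. -/
def idPath : Path (0 : I) 1 := ⟨ContinuousMap.id I, rfl, rfl⟩

/-! ## The gluing datum -/

/-- The datum from which the covering is glued: an open neighbourhood `U i` of every point `i`, and for
every `b` a class `ell i b` of paths from the base point to `b`, such that `ell i` is "parallel" along
paths that stay in `U i`. -/
structure Datum (X : Type u) [TopologicalSpace X] (x₀ : X) where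
  /-- the trivialising open sets -/
  U : X → Set X
  isOpen_U : ∀ i, IsOpen (U i)
  mem_U : ∀ i, i ∈ U i
  /-- the reference classes of paths -/
  ell : ∀ (_ : X) (b : X), Path.Homotopic.Quotient x₀ b
  ell_trans : ∀ (i : X) {b b' : X} (δ : Path b b'), (∀ t, δ t ∈ U i) →
    (ell i b).trans (Path.Homotopic.Quotient.mk δ) = ell i b'

/-- The fibre of the covering: `π₁(X, x₀)` with the discrete topology. -/
@[ext]
structure Fib (x₀ : X) where
  /-- the underlying class of loops -/
  val : Path.Homotopic.Quotient x₀ x₀

instance instTopologicalSpaceFib (x₀ : X) : TopologicalSpace (Fib x₀) := ⊥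

instance instDiscreteTopologyFib (x₀ : X) : DiscreteTopology (Fib x₀) := ⟨rfl⟩

namespace Datum

variable {x₀ : X} (D : Datum X x₀)

theorem ell_trans_symm {i j b b' : X} (δ : Path b b') (hi : ∀ t, δ t ∈ D.U i)
    (hj : ∀ t, δ t ∈ D.U j) :
    (D.ell i b').trans (D.ell j b').symm = (D.ell i b).trans (D.ell j b).symm := by
  rw [← D.ell_trans i δ hi, ← D.ell_trans j δ hj, symm_trans_rev]
  simp

variable [LocallyPathConnectedSpace X]

/-- The fibre bundle core defining the covering. -/
def core : FiberBundleCore X X (Fib x₀) where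
  baseSet := D.U
  isOpen_baseSet := D.isOpen_U
  indexAt := id
  mem_baseSet_at := D.mem_U
  coordChange i j b f := ⟨f.val.trans ((D.ell i b).trans (D.ell j b).symm)⟩
  coordChange_self i x _ v := by simp
  continuousOn_coordChange i j := by
    rintro ⟨b, f⟩ ⟨hb, -⟩
    obtain ⟨V, ⟨hV, hVpc⟩, hVsub⟩ := (path_connected_basis b).mem_iff.1
      (((D.isOpen_U i).inter (D.isOpen_U j)).mem_nhds hb)
    refine ContinuousAt.continuousWithinAt ?_
    have h1 : V ×ˢ ({f} : Set (Fib x₀)) ∈ 𝓝 (b, f) :=
      prod_mem_nhds hV ((isOpen_discrete _).mem_nhds rfl)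
    refine continuousAt_const.congr (f := fun _ => (⟨f.val.trans ((D.ell i b).trans
      (D.ell j b).symm)⟩ : Fib x₀)) ?_
    filter_upwards [h1] with p hp
    obtain ⟨b', f'⟩ := p
    obtain ⟨hb', hf'⟩ := hp
    obtain rfl : f' = f := hf'
    obtain ⟨δ, hδ⟩ := hVpc.joinedIn b (mem_of_mem_nhds hV) b' hb'
    simp only
    rw [D.ell_trans_symm δ (fun t => (hVsub (hδ t)).1) (fun t => (hVsub (hδ t)).2)]
  coordChange_comp i j k x _ v := by simp

/-- The total space of the covering. -/
abbrev Total : Type u := D.core.TotalSpace

/-- The covering projection. -/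
abbrev proj : D.Total → X := D.core.proj

/-- The point of the total space over `x` given by a class of paths from `x₀` to `x`. -/
def ofCls (x : X) (q : Path.Homotopic.Quotient x₀ x) : D.Total :=
  ⟨x, (⟨q.trans (D.ell x x).symm⟩ : Fib x₀)⟩

/-- The class of paths from `x₀` to `proj e` given by a point `e` of the total space. -/
def cls (e : D.Total) : Path.Homotopic.Quotient x₀ e.1 :=
  (show Fib x₀ from e.2).val.trans (D.ell e.1 e.1)

@[simp] theorem proj_ofCls (x : X) (q : Path.Homotopic.Quotient x₀ x) : (D.ofCls x q).1 = x := rfl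

theorem ofCls_cls (e : D.Total) : D.ofCls e.1 (D.cls e) = e := by
  obtain ⟨x, f⟩ := e
  simp only [ofCls, cls, Path.Homotopic.Quotient.trans_assoc, Path.Homotopic.Quotient.trans_symm,
    Path.Homotopic.Quotient.trans_refl]
  rfl

theorem ofCls_injective (x : X) : Function.Injective (D.ofCls x) := by
  intro q q' h
  have h2 : (⟨q.trans (D.ell x x).symm⟩ : Fib x₀) = ⟨q'.trans (D.ell x x).symm⟩ :=
    eq_of_heq (Bundle.TotalSpace.mk.inj h).2
  exact trans_right_cancel _ (congrArg Fib.val h2)

theorem isCoveringMap_proj : IsCoveringMap D.proj :=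
  FiberBundle.isCoveringMap (F := Fib x₀) (E := D.core.Fiber)

theorem proj_surjective [PathConnectedSpace X] : Function.Surjective D.proj := fun x =>
  ⟨D.ofCls x (Path.Homotopic.Quotient.mk (PathConnectedSpace.somePath x₀ x)), rfl⟩

/-- The inverse of the `i`-th trivialisation in terms of classes of paths. -/
theorem localTriv_symm_apply (i b : X) (f : Fib x₀) :
    (D.core.localTriv i).toOpenPartialHomeomorph.symm (b, f) = D.ofCls b (f.val.trans (D.ell i b)) := by
  rw [FiberBundleCore.localTriv_symm_apply]
  simp [ofCls, core]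

/-- **Key lemma.**  Lifts of maps from simply connected, locally path connected spaces, given by an
explicit formula: `y ↦ [q₀ · g_*(the class of paths from y₀ to y)]`. -/
theorem continuous_lift {Y : Type*} [TopologicalSpace Y] [SimplyConnectedSpace Y]
    [LocallyPathConnectedSpace Y] (g : C(Y, X)) (y₀ : Y)
    (q₀ : Path.Homotopic.Quotient x₀ (g y₀)) :
    Continuous (fun y => D.ofCls (g y) (q₀.trans ((uniq y₀ y).map g))) := by
  rw [continuous_iff_continuousAt]
  intro y₁
  have hW : g ⁻¹' (D.U (g y₁)) ∈ 𝓝 y₁ :=
    ((D.isOpen_U (g y₁)).preimage g.continuous).mem_nhds (D.mem_U (g y₁))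
  obtain ⟨V, ⟨hV, hVpc⟩, hVsub⟩ := (path_connected_basis y₁).mem_iff.1 hW
  let c : Fib x₀ := ⟨(q₀.trans ((uniq y₀ y₁).map g)).trans (D.ell (g y₁) (g y₁)).symm⟩
  have hcont : ContinuousAt
      (fun y => (D.core.localTriv (g y₁)).toOpenPartialHomeomorph.symm (g y, c)) y₁ := by
    have h1 : ContinuousAt (D.core.localTriv (g y₁)).toOpenPartialHomeomorph.symm (g y₁, c) :=
      (D.core.localTriv (g y₁)).toOpenPartialHomeomorph.symm.continuousAt
        ((D.core.mem_localTriv_target (g y₁) (g y₁, c)).2 (D.mem_U (g y₁)))
    exact ContinuousAt.comp (f := fun y => (g y, c)) h1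
      (g.continuous.continuousAt.prodMk continuousAt_const)
  refine hcont.congr ?_
  filter_upwards [hV] with y hy
  obtain ⟨δ, hδ⟩ := hVpc.joinedIn y₁ (mem_of_mem_nhds hV) y hy
  rw [localTriv_symm_apply]
  congr 1
  have h2 : uniq y₀ y = (uniq y₀ y₁).trans (Path.Homotopic.Quotient.mk δ) := Subsingleton.elim _ _
  rw [h2, map_trans, ← D.ell_trans (g y₁) (δ.map g.continuous) (fun t => hVsub (hδ t)),
    ← Path.Homotopic.Quotient.mk_map]
  simp [c]

/-- The projection of a path of the total space. -/
def projPath {e e' : D.Total} (P : Path e e') : Path e.1 e'.1 :=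
  P.map D.isCoveringMap_proj.continuous

theorem cls_eq_aux (P : C(I, D.Total)) :
    D.cls (P 1) = (D.cls (P 0)).trans (Path.Homotopic.Quotient.mk
      (D.projPath (⟨P, rfl, rfl⟩ : Path (P 0) (P 1)))) := by
  let g : C(I, X) := ⟨fun t => (P t).1, D.isCoveringMap_proj.continuous.comp P.continuous⟩
  have hL := D.continuous_lift g 0 (D.cls (P 0))
  have hEq : (fun t => D.ofCls (g t) ((D.cls (P 0)).trans ((uniq 0 t).map g))) = P := by
    refine D.isCoveringMap_proj.eq_of_comp_eq hL P.continuous (by ext t; rfl) 0 ?_
    have h0 : uniq (0 : I) 0 = Path.Homotopic.Quotient.refl 0 := Subsingleton.elim _ _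
    simp only [h0, map_refl]
    show D.ofCls (P 0).1 ((D.cls (P 0)).trans (Path.Homotopic.Quotient.refl (P 0).1)) = P 0
    rw [Path.Homotopic.Quotient.trans_refl]
    exact D.ofCls_cls (P 0)
  have h1 : D.ofCls (g 1) ((D.cls (P 0)).trans ((uniq 0 1).map g)) = D.ofCls (P 1).1 (D.cls (P 1)) :=
    (congrFun hEq 1).trans (D.ofCls_cls (P 1)).symm
  have h2 := D.ofCls_injective _ h1
  rw [← h2]
  have h3 : uniq (0 : I) 1 = Path.Homotopic.Quotient.mk idPath := Subsingleton.elim _ _
  rw [h3, ← Path.Homotopic.Quotient.mk_map]
  rfl

/-- The class of the end point of a path of the total space. -/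
theorem cls_eq_of_path {e e' : D.Total} (P : Path e e') :
    D.cls e' = (D.cls e).trans (Path.Homotopic.Quotient.mk (D.projPath P)) := by
  have key : ∀ (Q : C(I, D.Total)) (e e' : D.Total) (h0 : Q 0 = e) (h1 : Q 1 = e'),
      D.cls e' = (D.cls e).trans (Path.Homotopic.Quotient.mk
        (D.projPath (⟨Q, h0, h1⟩ : Path e e'))) := by
    intro Q e e' h0 h1
    subst h0 h1
    exact D.cls_eq_aux Q
  exact key P.toContinuousMap e e' P.source P.target

/-- The base point of the total space. -/
def base : D.Total := D.ofCls x₀ (Path.Homotopic.Quotient.refl x₀)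

theorem joined_base (x : X) (q : Path.Homotopic.Quotient x₀ x) : Joined D.base (D.ofCls x q) := by
  induction q using Path.Homotopic.Quotient.ind with | mk γ =>
  have key : ∀ (x₀ x : X) (D : Datum X x₀) (g : C(I, X)) (h0 : g 0 = x₀) (h1 : g 1 = x),
      Joined D.base (D.ofCls x (Path.Homotopic.Quotient.mk ⟨g, h0, h1⟩)) := by
    intro x₀ x D g h0 h1
    subst h0 h1
    have hL := D.continuous_lift g 0 (Path.Homotopic.Quotient.refl (g 0))
    refine ⟨⟨⟨_, hL⟩, ?_, ?_⟩⟩
    · have h0 : uniq (0 : I) 0 = Path.Homotopic.Quotient.refl 0 := Subsingleton.elim _ _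
      simp only [h0, map_refl, Path.Homotopic.Quotient.trans_refl]
      rfl
    · have h3 : uniq (0 : I) 1 = Path.Homotopic.Quotient.mk idPath := Subsingleton.elim _ _
      simp only [h3, ← Path.Homotopic.Quotient.mk_map, Path.Homotopic.Quotient.refl_trans]
      rfl
  exact key x₀ x D γ.toContinuousMap γ.source γ.target

theorem pathConnectedSpace_total : PathConnectedSpace D.Total where
  nonempty := ⟨D.base⟩
  joined e e' := by
    have h1 := D.joined_base e.1 (D.cls e)
    have h2 := D.joined_base e'.1 (D.cls e')
    rw [D.ofCls_cls] at h1 h2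
    exact h1.symm.trans h2

/-- **The total space is simply connected.** -/
theorem simplyConnectedSpace_total : SimplyConnectedSpace D.Total := by
  rw [simply_connected_iff_paths_homotopic']
  refine ⟨D.pathConnectedSpace_total, fun {e e'} p₁ p₂ => ?_⟩
  have h3 : Path.Homotopic.Quotient.mk (D.projPath p₁) = Path.Homotopic.Quotient.mk (D.projPath p₂) :=
    trans_left_cancel _ ((D.cls_eq_of_path p₁).symm.trans (D.cls_eq_of_path p₂))
  exact Path.Homotopic.Quotient.exact (D.isCoveringMap_proj.injective_path_homotopic_map e e'
    (a₁ := Path.Homotopic.Quotient.mk p₁) (a₂ := Path.Homotopic.Quotient.mk p₂) h3)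

end Datum

/-! ## Construction of a gluing datum -/

theorem trans_mem {U : Set X} {a b c : X} (γ : Path a b) (γ' : Path b c) (h : ∀ t, γ t ∈ U)
    (h' : ∀ t, γ' t ∈ U) (t : I) : γ.trans γ' t ∈ U := by
  rw [Path.trans_apply]
  split_ifs
  · exact h _
  · exact h' _

/-- Two paths with the same end points in a simply connected subset are homotopic. -/
theorem homotopic_of_isSimplyConnected {U : Set X} (hU : IsSimplyConnected U) {b b' : X}
    (δ₁ δ₂ : Path b b') (h₁ : ∀ t, δ₁ t ∈ U) (h₂ : ∀ t, δ₂ t ∈ U) : δ₁.Homotopic δ₂ := by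
  have := hU.simplyConnectedSpace
  have hb : b ∈ U := by simpa using h₁ 0
  have hb' : b' ∈ U := by simpa using h₁ 1
  let ε₁ : Path (⟨b, hb⟩ : U) ⟨b', hb'⟩ :=
    ⟨⟨fun t => ⟨δ₁ t, h₁ t⟩, by fun_prop⟩, Subtype.ext δ₁.source, Subtype.ext δ₁.target⟩
  let ε₂ : Path (⟨b, hb⟩ : U) ⟨b', hb'⟩ :=
    ⟨⟨fun t => ⟨δ₂ t, h₂ t⟩, by fun_prop⟩, Subtype.ext δ₂.source, Subtype.ext δ₂.target⟩
  exact (SimplyConnectedSpace.paths_homotopic ε₁ ε₂).map ⟨Subtype.val, continuous_subtype_val⟩

open Classical in
/-- A gluing datum from a family of path connected open sets in which paths with the same end points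
are homotopic in `X`. -/
def Datum.ofGood [PathConnectedSpace X] (x₀ : X) (U : X → Set X) (hU : ∀ i, IsOpen (U i))
    (hmem : ∀ i, i ∈ U i) (hpc : ∀ i, IsPathConnected (U i))
    (hh : ∀ (i : X) {b b' : X} (δ₁ δ₂ : Path b b'), (∀ t, δ₁ t ∈ U i) → (∀ t, δ₂ t ∈ U i) →
      δ₁.Homotopic δ₂) : Datum X x₀ where
  U := U
  isOpen_U := hU
  mem_U := hmem
  ell i b := if h : b ∈ U i then
      (Path.Homotopic.Quotient.mk (PathConnectedSpace.somePath x₀ i)).trans
        (Path.Homotopic.Quotient.mk ((hpc i).joinedIn i (hmem i) b h).somePath)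
    else Path.Homotopic.Quotient.mk (PathConnectedSpace.somePath x₀ b)
  ell_trans i b b' δ hδ := by
    have hb : b ∈ U i := by simpa using hδ 0
    have hb' : b' ∈ U i := by simpa using hδ 1
    simp only [dif_pos hb, dif_pos hb', Path.Homotopic.Quotient.trans_assoc]
    congr 1
    rw [← Path.Homotopic.Quotient.mk_trans, Path.Homotopic.Quotient.eq]
    exact hh i _ _ (trans_mem _ _ (JoinedIn.somePath_mem _) hδ) (JoinedIn.somePath_mem _)

/-- **Existence of universal covers** (topological version): a path connected, locally path connected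
space in which every point has a simply connected open neighbourhood has a simply connected covering
space. -/
theorem exists_simplyConnected_covering (X : Type u) [TopologicalSpace X] [PathConnectedSpace X]
    [LocallyPathConnectedSpace X]
    (h : ∀ x : X, ∃ U : Set X, IsOpen U ∧ x ∈ U ∧ IsSimplyConnected U) :
    ∃ (E : Type u) (_ : TopologicalSpace E) (p : E → X),
      SimplyConnectedSpace E ∧ IsCoveringMap p ∧ Function.Surjective p := by
  obtain ⟨x₀⟩ : Nonempty X := inferInstance
  choose U hU hmem hsc using h
  let D : Datum X x₀ := Datum.ofGood x₀ U hU hmem (fun i => (hsc i).isPathConnected)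
    (fun i _ _ δ₁ δ₂ => homotopic_of_isSimplyConnected (hsc i) δ₁ δ₂)
  exact ⟨D.Total, inferInstance, D.proj, D.simplyConnectedSpace_total, D.isCoveringMap_proj,
    D.proj_surjective⟩

end UCover

end


end top

section countable

open Set Filter Topology

namespace UCover

/-- **Chain lemma.**  If a preconnected space is covered by open sets each of which meets only countably
many of the others, then countably many of them cover the space. -/
theorem exists_countable_subcover_of_chain {E ι : Type*} [TopologicalSpace E] [PreconnectedSpace E]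
    (S : ι → Set E) (hopen : ∀ i, IsOpen (S i)) (hcov : ∀ e, ∃ i, e ∈ S i)
    (hcount : ∀ i, {j | (S i ∩ S j).Nonempty}.Countable) :
    ∃ T : Set ι, T.Countable ∧ ⋃ i ∈ T, S i = univ := by
  rcases isEmpty_or_nonempty E with hE | ⟨⟨e₀⟩⟩
  · exact ⟨∅, countable_empty, by ext e; exact (hE.false e).elim⟩
  obtain ⟨i₀, hi₀⟩ := hcov e₀
  let Tn : ℕ → Set ι := fun n => Nat.rec {i₀} (fun _ A => ⋃ i ∈ A, {j | (S i ∩ S j).Nonempty}) n
  have hTn : ∀ n, (Tn n).Countable := by
    intro n
    induction n with
    | zero => exact countable_singleton _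
    | succ n ih => exact ih.biUnion fun i _ => hcount i
  have hT : (⋃ n, Tn n).Countable := countable_iUnion hTn
  have hclosed : ∀ i ∈ ⋃ n, Tn n, ∀ j, (S i ∩ S j).Nonempty → j ∈ ⋃ n, Tn n := by
    intro i hi j hij
    obtain ⟨n, hn⟩ := mem_iUnion.1 hi
    exact mem_iUnion.2 ⟨n + 1, mem_biUnion hn hij⟩
  have hWo : IsOpen (⋃ i ∈ ⋃ n, Tn n, S i) := isOpen_biUnion fun i _ => hopen i
  have hWc : IsClosed (⋃ i ∈ ⋃ n, Tn n, S i) := by
    rw [← isOpen_compl_iff]
    have : (⋃ i ∈ ⋃ n, Tn n, S i)ᶜ = ⋃ j ∈ (⋃ n, Tn n)ᶜ, S j := by
      ext e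
      constructor
      · intro he
        obtain ⟨j, hj⟩ := hcov e
        exact mem_biUnion (x := j) (fun hjT => he (mem_biUnion hjT hj)) hj
      · intro he heW
        obtain ⟨j, hjT, hj⟩ := mem_iUnion₂.1 he
        obtain ⟨i, hiT, hi⟩ := mem_iUnion₂.1 heW
        exact hjT (hclosed i hiT j ⟨e, hi, hj⟩)
    rw [this]
    exact isOpen_biUnion fun i _ => hopen i
  exact ⟨⋃ n, Tn n, hT, IsClopen.eq_univ ⟨hWc, hWo⟩
    ⟨e₀, mem_biUnion (mem_iUnion.2 ⟨0, rfl⟩) hi₀⟩⟩

/-- A continuous map from a separable space to a discrete space has countable range. -/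
theorem countable_range_of_discrete {A F : Type*} [TopologicalSpace A]
    [TopologicalSpace.SeparableSpace A] [TopologicalSpace F] [DiscreteTopology F] {f : A → F}
    (hf : Continuous f) : (range f).Countable := by
  obtain ⟨D, hD, hdense⟩ := TopologicalSpace.exists_countable_dense A
  have h : range f ⊆ closure (f '' D) := hf.range_subset_closure_image_dense hdense
  rw [closure_discrete] at h
  exact (hD.image f).mono h

section Sheets

variable {E X F : Type*} [TopologicalSpace E] [TopologicalSpace X] [TopologicalSpace F]
  {p : E → X}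

/-- The sheet of the trivialisation `T` with second coordinate `f`. -/
def sheet (T : Bundle.Trivialization F p) (f : F) : Set E := T.source ∩ T ⁻¹' (univ ×ˢ {f})

theorem mem_sheet {T : Bundle.Trivialization F p} {f : F} {e : E} :
    e ∈ sheet T f ↔ p e ∈ T.baseSet ∧ (T e).2 = f := by
  simp [sheet, T.mem_source]

theorem isOpen_sheet [DiscreteTopology F] (T : Bundle.Trivialization F p) (f : F) :
    IsOpen (sheet T f) :=
  T.toOpenPartialHomeomorph.continuousOn.isOpen_inter_preimage T.open_source
    (isOpen_univ.prod (isOpen_discrete _))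

theorem injOn_sheet (T : Bundle.Trivialization F p) (f : F) : InjOn p (sheet T f) := by
  intro e he e' he' h
  rw [mem_sheet] at he he'
  refine T.injOn (T.mem_source.2 he.1) (T.mem_source.2 he'.1) ?_
  refine Prod.ext ?_ (he.2.trans he'.2.symm)
  show (T e).1 = (T e').1
  rw [T.coe_fst (T.mem_source.2 he.1), T.coe_fst (T.mem_source.2 he'.1), h]

end Sheets

/-- **Poincaré–Volterra for coverings.**  A preconnected covering space (with discrete fibre `F`) of a
second countable space is second countable. -/
theorem secondCountableTopology_of_trivializations {E X F : Type*} [TopologicalSpace E]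
    [TopologicalSpace X] [TopologicalSpace F] [DiscreteTopology F] [SecondCountableTopology X]
    [PreconnectedSpace E] {p : E → X} (T : X → Bundle.Trivialization F p)
    (hT : ∀ x, x ∈ (T x).baseSet) : SecondCountableTopology E := by
  have hcov : IsCoveringMap p := IsFiberBundle.isCoveringMap fun x => ⟨T x, hT x⟩
  -- every sheet is second countable
  have hsc : ∀ (k : X) (f : F), SecondCountableTopology (sheet (T k) f) := by
    intro k f
    have hemb : IsOpenEmbedding (fun e : sheet (T k) f => p e) :=
      .of_continuous_injective_isOpenMap (hcov.continuous.comp continuous_subtype_val)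
        (fun a b h => Subtype.ext (injOn_sheet (T k) f a.2 b.2 h))
        (hcov.isOpenMap.comp (isOpen_sheet (T k) f).isOpenMap_subtype_val)
    exact hemb.isEmbedding.isInducing.secondCountableTopology
  obtain ⟨K, hK, hKcov⟩ := TopologicalSpace.countable_cover_nhds
    (fun x => (T x).open_baseSet.mem_nhds (hT x))
  -- the family of sheets over the countably many base sets
  let S : K × F → Set E := fun kf => sheet (T kf.1) kf.2
  have hcount : ∀ i : K × F, {j | (S i ∩ S j).Nonempty}.Countable := by
    rintro ⟨k, f⟩
    have := hsc k f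
    have hl : ∀ l : K, {f' : F | (S (k, f) ∩ S (l, f')).Nonempty}.Countable := by
      intro l
      let A : Set (sheet (T k) f) := {e | p e ∈ (T l).baseSet}
      have hcont : Continuous (fun e : A => (T l (e : E)).2) := by
        have h1 : ContinuousOn (T l) (T l).source := (T l).toOpenPartialHomeomorph.continuousOn
        have h2 : Continuous (fun e : A => T l (e : E)) :=
          h1.comp_continuous (continuous_subtype_val.comp continuous_subtype_val)
            (fun e => (T l).mem_source.2 e.2)
        exact continuous_snd.comp h2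
      refine (countable_range_of_discrete hcont).mono ?_
      rintro f' ⟨e, he, he'⟩
      exact ⟨⟨⟨e, he⟩, (mem_sheet.1 he').1⟩, (mem_sheet.1 he').2⟩
    have hK' : Countable K := hK.to_subtype
    have : {j : K × F | (S (k, f) ∩ S j).Nonempty} =
        ⋃ l : K, (fun f' => (l, f')) '' {f' : F | (S (k, f) ∩ S (l, f')).Nonempty} := by
      ext ⟨l, f'⟩
      constructor
      · intro h
        exact mem_iUnion.2 ⟨l, f', h, rfl⟩
      · intro h
        obtain ⟨l', f'', h1, h2⟩ := mem_iUnion.1 h
        obtain ⟨rfl, rfl⟩ := Prod.mk.inj h2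
        exact h1
    rw [this]
    exact countable_iUnion fun l => (hl l).image _
  obtain ⟨J, hJ, hJcov⟩ := exists_countable_subcover_of_chain S
    (fun i => isOpen_sheet (T i.1) i.2)
    (fun e => by
      have : p e ∈ ⋃ x ∈ K, (T x).baseSet := hKcov ▸ mem_univ _
      obtain ⟨k, hk, hek⟩ := mem_iUnion₂.1 this
      exact ⟨(⟨k, hk⟩, (T k e).2), mem_sheet.2 ⟨hek, rfl⟩⟩) hcount
  have hJ' : Countable J := hJ.to_subtype
  have : ∀ j : J, SecondCountableTopology (S j) := fun j => hsc _ _
  refine TopologicalSpace.secondCountableTopology_of_countable_cover (U := fun j : J => S j)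
    (fun j => isOpen_sheet _ _) ?_
  rw [← hJcov, iUnion_subtype]

/-- A covering space of a Hausdorff space is Hausdorff. -/
theorem t2Space_of_isCoveringMap {E X : Type*} [TopologicalSpace E] [TopologicalSpace X] [T2Space X]
    {p : E → X} (hp : IsCoveringMap p) : T2Space E := by
  refine ⟨fun e e' hne => ?_⟩
  by_cases h : p e = p e'
  · exact hp.isSeparatedMap e e' h hne
  · obtain ⟨u, v, hu, hv, heu, hev, huv⟩ := t2_separation h
    exact ⟨p ⁻¹' u, p ⁻¹' v, hu.preimage hp.continuous, hv.preimage hp.continuous, heu, hev,
      huv.preimage p⟩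

end UCover


end countable

open Set Topology in
/-- **UC-ABS**: a path connected, locally path connected, second countable space in which every point has a simply connected open neighbourhood has a simply connected covering
space, with a global discrete countable fibre `F` and a trivialisation around every point. -/
theorem uc_abs (B : Type) [TopologicalSpace B] [PathConnectedSpace B] [LocallyPathConnectedSpace B]
    [SecondCountableTopology B]
    (h : ∀ x : B, ∃ U : Set B, IsOpen U ∧ x ∈ U ∧ IsSimplyConnected U) :
    ∃ (Eh : Type) (_ : TopologicalSpace Eh) (F : Type) (_ : TopologicalSpace F)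
      (_ : DiscreteTopology F) (p : Eh → B) (T : B → Bundle.Trivialization F p),
      SimplyConnectedSpace Eh ∧ Countable F ∧ ∀ x, x ∈ (T x).baseSet := by
  obtain ⟨x₀⟩ : Nonempty B := inferInstance
  choose U hU hmem hsc using h
  let D : UCover.Datum B x₀ := UCover.Datum.ofGood x₀ U hU hmem (fun i => (hsc i).isPathConnected)
    (fun i _ _ δ₁ δ₂ => UCover.homotopic_of_isSimplyConnected (hsc i) δ₁ δ₂)
  have hsc' : SimplyConnectedSpace D.Total := D.simplyConnectedSpace_total
  let T : B → Bundle.Trivialization (UCover.Fib x₀) D.proj := fun x => D.core.localTriv x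
  have hT : ∀ x, x ∈ (T x).baseSet := fun x => hmem x
  refine ⟨D.Total, inferInstance, UCover.Fib x₀, inferInstance, inferInstance, D.proj, T, hsc', ?_, hT⟩
  have h2 : SecondCountableTopology D.Total := UCover.secondCountableTopology_of_trivializations T hT
  have hcont : Continuous (fun e : (T x₀).source => (T x₀ (e : D.Total)).2) :=
    continuous_snd.comp ((T x₀).toOpenPartialHomeomorph.continuousOn.comp_continuous
      continuous_subtype_val (fun e => e.2))
  have hr := UCover.countable_range_of_discrete hcont
  have hsurj : range (fun e : (T x₀).source => (T x₀ (e : D.Total)).2) = univ := by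
    refine eq_univ_of_forall fun f => ?_
    have hmemT : (x₀, f) ∈ (T x₀).target := (T x₀).mem_target.2 (hT x₀)
    refine ⟨⟨(T x₀).toOpenPartialHomeomorph.symm (x₀, f),
      (T x₀).toOpenPartialHomeomorph.map_target hmemT⟩, ?_⟩
    show (T x₀ ((T x₀).toOpenPartialHomeomorph.symm (x₀, f))).2 = f
    have := (T x₀).toOpenPartialHomeomorph.right_inv hmemT
    exact congrArg Prod.snd this
  rw [hsurj] at hr
  exact countable_univ_iff.1 hr

end Claimed.Agent.R314
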