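import Claimed.Agent.R314.Defs

/-!
# Row 314, block UC (chief helper266): level-2 interface

The universal cover of the compact connected manifold `M ⊆ V` is realised as a closed subset `X` of a bigger space `V'`, the covering map is
the restriction of a LINEAR map `P : V' → V`.  All halves of UC talk to each other through the two notions of this file.

* `Sheeted X M P` : `X` is closed, `P` maps `X` to `M`, every `y₀ ∈ M` has an open neighbourhood `G` (in `V`) with `M ∩ G` connected such that through
  every `x ∈ X` over `G` there is a SHEET: a globally smooth section `Λ : V → V'` of `P` (`P ∘ Λ = id` on all of `V`) with `Λ (P x) = x`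
  which maps `M ∩ G` ONTO a relatively open subset `X ∩ O` of `X`; a compact subset of `X` is mapped onto `M`.
  (In the construction `Λ y = (y, (χ_i y * c_i)_i)` with constants `c_i`.)
* `HasDeck X P` : the group of homeomorphisms `γ` of `X` with `P ∘ γ = P` is transitive on the fibres (ambient functions, only the values on `X` matter).

Halves:  UCT (`UC/Abs.lean`, `UC/Emb.lean`, helper266)  : construction, exit `uct_main` (`UC/Emb.lean`)
         UCF (`UC/Loc.lean`, `UC/Lift.lean`, helper257) : local topology of manifolds, deck maps, `Fill k X`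
         UCM (`UC/Met.lean`, helper274)                 : `IsMfd`, `IsCov`, deck maps are `IsIso`, `IsProperOn`
         `UC/Main.lean` : `uc_main` from these (compiles).
-/

set_option autoImplicit false
open scoped ContDiff Topology
open Set Claims.C0499 Claimed.Agent.R315

namespace Claimed.Agent.R314

variable {V : Type} [NormedAddCommGroup V] [NormedSpace ℝ V]
variable {V' : Type} [NormedAddCommGroup V'] [NormedSpace ℝ V']

/-- `P : X → M` is a covering with smooth sheets (see the header). -/
structure Sheeted (X : Set V') (M : Set V) (P : V' →L[ℝ] V) : Prop where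
  closed : IsClosed X
  mapsTo : MapsTo P X M
  sheet : ∀ y₀ ∈ M, ∃ G : Set V, IsOpen G ∧ y₀ ∈ G ∧ IsPreconnected (M ∩ G) ∧ ∀ x ∈ X, P x ∈ G →
    ∃ (Λ : V → V') (O : Set V'), ContDiff ℝ ∞ Λ ∧ (∀ y, P (Λ y) = y) ∧ Λ (P x) = x ∧ IsOpen O ∧
      Λ '' (M ∩ G) = X ∩ O
  cpt : ∃ K : Set V', IsCompact K ∧ K ⊆ X ∧ SurjOn P K M

/-- `γ` is a deck transformation of `P : X → M` with inverse `γ'`. -/
structure IsDeck (X : Set V') (P : V' →L[ℝ] V) (γ γ' : V' → V') : Prop where
  cont : ContinuousOn γ X
  cont' : ContinuousOn γ' X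
  mapsTo : MapsTo γ X X
  mapsTo' : MapsTo γ' X X
  left : ∀ z ∈ X, γ' (γ z) = z
  right : ∀ z ∈ X, γ (γ' z) = z
  proj : ∀ z ∈ X, P (γ z) = P z
  proj' : ∀ z ∈ X, P (γ' z) = P z

theorem IsDeck.symm {X : Set V'} {P : V' →L[ℝ] V} {γ γ' : V' → V'} (h : IsDeck X P γ γ') :
    IsDeck X P γ' γ :=
  ⟨h.cont', h.cont, h.mapsTo', h.mapsTo, h.right, h.left, h.proj', h.proj⟩

/-- the deck transformations are transitive on the fibres. -/
def HasDeck (X : Set V') (P : V' →L[ℝ] V) : Prop :=
  ∀ x ∈ X, ∀ x' ∈ X, P x = P x' → ∃ γ γ' : V' → V', IsDeck X P γ γ' ∧ γ x = x'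

end Claimed.Agent.R314
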