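import Claimed.Agent.R314.UC.Defs

/-!
# Row 314, block UC, package UCF (helper257; chief helper266): local topology of a manifold `M ⊆ V`

* `ucf_param_openEmbedding` : a parametrisation is an open embedding of its domain into the subtype `M`;
* `ucf_nhd_basis` : every point of `M` has arbitrarily small simply connected open neighbourhoods;
* `ucf_nhd` : the input of `exists_simplyConnected_covering`;
* `ucf_locallyPathConnected`, `ucf_pathConnected`;
* `ucf_locallyPathConnected_of_localHomeo` : the total space of a local homeomorphism (covering) is locally path connected.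
-/

set_option autoImplicit false
open scoped ContDiff Topology
open Set Claimed.Agent.R315

namespace Claimed.Agent.R314

variable {V : Type} [NormedAddCommGroup V] [NormedSpace ℝ V] {n : ℕ} {M : Set V}

/-- a parametrisation as a map into the subtype. -/
def ucfChart {ψ : E n → V} {W : Set (E n)} (hp : IsParam M ψ W) : W → M :=
  fun w => ⟨ψ w, if_mem hp w.2⟩

theorem ucf_param_openEmbedding {ψ : E n → V} {W : Set (E n)} (hp : IsParam M ψ W) :
    Topology.IsOpenEmbedding (ucfChart hp) := by
  refine Topology.IsOpenEmbedding.of_continuous_injective_isOpenMap ?_ ?_ ?_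
  · exact Continuous.subtype_mk (continuousOn_iff_continuous_domRestrict.1 (if_continuousOn hp)) _
  · intro a b hab
    exact Subtype.ext (if_injOn hp a.2 b.2 (congrArg Subtype.val hab))
  · intro S hS
    obtain ⟨S', hS', rfl⟩ := isOpen_induced_iff.1 hS
    obtain ⟨O, hO, hOe⟩ := if_image_open hp (hS'.inter (if_open hp)) inter_subset_right
    have : ucfChart hp '' (Subtype.val ⁻¹' S') = Subtype.val ⁻¹' O := by
      ext y
      constructor
      · rintro ⟨w, hw, rfl⟩
        have : ψ w ∈ M ∩ O := hOe ▸ mem_image_of_mem ψ ⟨hw, w.2⟩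
        exact this.2
      · intro hy
        have : (y : V) ∈ ψ '' (S' ∩ W) := hOe ▸ ⟨y.2, hy⟩
        obtain ⟨w, ⟨hw1, hw2⟩, hwy⟩ := this
        exact ⟨⟨w, hw2⟩, hw1, Subtype.ext hwy⟩
    rw [this]
    exact hO.preimage continuous_subtype_val

/-- small simply connected open neighbourhoods. -/
theorem ucf_nhd_basis (hM : IsMfd n M) (x : M) {T : Set M} (hT : T ∈ 𝓝 x) :
    ∃ U : Set M, IsOpen U ∧ x ∈ U ∧ IsSimplyConnected U ∧ U ⊆ T := by
  obtain ⟨ψ, W, hp, u, hu, hux⟩ := hM x.1 x.2
  have he := ucf_param_openEmbedding hp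
  have hxe : ucfChart hp ⟨u, hu⟩ = x := Subtype.ext hux
  have h1 : ucfChart hp ⁻¹' T ∈ 𝓝 (⟨u, hu⟩ : W) := he.continuous.continuousAt.preimage_mem_nhds
    (by rw [hxe]; exact hT)
  rw [nhds_subtype_eq_comap, Filter.mem_comap] at h1
  obtain ⟨T', hT', hT'sub⟩ := h1
  obtain ⟨r, hr, hball⟩ := Metric.mem_nhds_iff.1 (Filter.inter_mem hT' ((if_open hp).mem_nhds hu))
  have hsub : Metric.ball u r ⊆ W := fun w hw => (hball hw).2
  have hp' : IsParam M ψ (Metric.ball u r) := if_mono hp Metric.isOpen_ball hsub
  have he' := ucf_param_openEmbedding hp'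
  refine ⟨range (ucfChart hp'), he'.isOpen_range, ⟨⟨u, Metric.mem_ball_self hr⟩, Subtype.ext hux⟩,
    ?_, ?_⟩
  · rw [← image_univ, he'.isEmbedding.isSimplyConnected_image]
    have : ContractibleSpace (Metric.ball u r) :=
      (convex_ball u r).contractibleSpace ⟨u, Metric.mem_ball_self hr⟩
    exact (Homeomorph.Set.univ (Metric.ball u r)).toHomotopyEquiv.simplyConnectedSpace
  · rintro _ ⟨w, rfl⟩
    exact hT'sub (show (⟨w.1, hsub w.2⟩ : W) ∈ Subtype.val ⁻¹' T' from (hball w.2).1)

/-- **(L)** the input of `exists_simplyConnected_covering`. -/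
theorem ucf_nhd (hM : IsMfd n M) (x : M) :
    ∃ U : Set M, IsOpen U ∧ x ∈ U ∧ IsSimplyConnected U := by
  obtain ⟨U, h1, h2, h3, -⟩ := ucf_nhd_basis hM x Filter.univ_mem
  exact ⟨U, h1, h2, h3⟩

theorem ucf_locallyPathConnected (hM : IsMfd n M) : LocallyPathConnectedSpace M := by
  refine ⟨fun x => ⟨fun s => ⟨fun hs => ?_, fun ⟨u, hu⟩ => Filter.mem_of_superset hu.1.1 hu.2⟩⟩⟩
  obtain ⟨U, h1, h2, h3, h4⟩ := ucf_nhd_basis hM x hs
  exact ⟨U, ⟨h1.mem_nhds h2, h3.isPathConnected⟩, h4⟩

theorem ucf_pathConnected (hM : IsMfd n M) (hc : IsConnected M) : PathConnectedSpace M := by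
  have := ucf_locallyPathConnected hM
  have : ConnectedSpace M := isConnected_iff_connectedSpace.1 hc
  exact PathConnectedSpace.of_locallyPathConnectedSpace

/-- the total space of a local homeomorphism onto a locally path connected space is locally path connected. -/
theorem ucf_locallyPathConnected_of_localHomeo {A B : Type} [TopologicalSpace A]
    [TopologicalSpace B] [LocallyPathConnectedSpace B] {p : A → B} (hp : IsLocalHomeomorph p) :
    LocallyPathConnectedSpace A := by
  refine ⟨fun x => ⟨fun s => ⟨fun hs => ?_, fun ⟨u, hu⟩ => Filter.mem_of_superset hu.1.1 hu.2⟩⟩⟩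
  obtain ⟨e, hxe, -⟩ := hp x
  let t := s ∩ e.source
  have ht : t ∈ 𝓝 x := Filter.inter_mem hs (e.open_source.mem_nhds hxe)
  refine ⟨e.symm '' pathComponentIn (e '' t) (e x), ⟨?_, ?_⟩, (?_ : _ ⊆ t).trans inter_subset_left⟩
  · nth_rewrite 1 [← e.left_inv hxe]
    apply e.symm.image_mem_nhds (by simpa using e.map_source hxe)
    exact pathComponentIn_mem_nhds <| e.image_mem_nhds hxe ht
  · refine (isPathConnected_pathComponentIn <| mem_image_of_mem e (mem_of_mem_nhds ht)).image' ?_
    refine e.continuousOn_symm.mono ?_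
    unfold t
    grw [pathComponentIn_subset, inter_subset_right, e.image_source_subset]
  · exact (image_mono pathComponentIn_subset).trans
      (PartialEquiv.symm_image_image_of_subset_source _ inter_subset_right).subset

/-! ## the names of the level-2 skeleton (chief helper266) -/

/-- **leaf UC-LOC-1** -/
theorem uc_locPathConn {n : ℕ} {S : Set V} (hS : IsMfd n S) : LocallyPathConnectedSpace S :=
  ucf_locallyPathConnected hS

/-- **leaf UC-LOC-2** -/
theorem uc_simplyConn_nhd {n : ℕ} {S : Set V} (hS : IsMfd n S) (x : S) :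
    ∃ U : Set S, IsOpen U ∧ x ∈ U ∧ IsSimplyConnected U :=
  ucf_nhd hS x

/-- connected manifolds are path connected -/
theorem uc_pathConn {n : ℕ} {S : Set V} (hS : IsMfd n S) (hc : IsConnected S) :
    PathConnectedSpace S :=
  ucf_pathConnected hS hc

end Claimed.Agent.R314
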