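import Claimed.Agent.R314.UC.Abs
import Claimed.Agent.R314.UC.Loc

/-!
# Row 314, block UC, half UCT (helper266): the covering space as a closed subset of `E N'`

`p : Eh → M` a covering of the compact manifold `M ⊆ V` with discrete countable fibre `F` and trivialisations `T i`, `i < r`, cut-off functions `χ i : V → ℝ`
(`tsupport (χ i) ∩ M ⊆ baseSet (T i)`, every point of `M` has an `i` with `χ i = 1`), labels `lab : F → ℕ` injective (`UceDat`).
`Phi e = (p e, (χ i (p e) * lab (T i e).2)_i) ∈ V × E r` is a closed embedding, and its range is `Sheeted` over `M` (`UC/Defs.lean`):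
over a good neighbourhood `G` (`UceDat.Nb`) the sheet through `e₀` is the image of `M ∩ G` under `Lam y = (y, (χ i y * cst i)_i)`, and it is cut out of the range by the open set `Op`.
Exits: `uc_embed`, `uct_main`.
-/

set_option autoImplicit false
set_option linter.unusedSectionVars false
open scoped ContDiff Topology
open Set Claims.C0499 Claimed.Agent.R315

namespace Claimed.Agent.R314

section emb

variable {V : Type} [NormedAddCommGroup V] [NormedSpace ℝ V]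

/-- the vector with coordinates `a i` -/
noncomputable def uceVec {r : ℕ} (a : Fin r → ℝ) : E r := ∑ i, a i • EuclideanSpace.single i (1 : ℝ)

theorem uceVec_apply {r : ℕ} (a : Fin r → ℝ) (j : Fin r) : uceVec a j = a j := by
  simp [uceVec, Finset.sum_apply, Pi.single_apply]

/-- the finite data of the embedding: trivialisations `T i`, cut-off functions `χ i`, labels of the sheets. -/
structure UceDat (M : Set V) {Eh : Type} [TopologicalSpace Eh] (F : Type) [TopologicalSpace F]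
    (p : Eh → M) where
  /-- number of trivialisations -/
  r : ℕ
  /-- trivialisations -/
  T : Fin r → Bundle.Trivialization F p
  /-- cut-off functions -/
  χ : Fin r → V → ℝ
  /-- labels -/
  lab : F → ℕ
  cov : IsCoveringMap p
  smooth : ∀ i, ContDiff ℝ ∞ (χ i)
  supp : ∀ i (y : M), (y : V) ∈ tsupport (χ i) → y ∈ (T i).baseSet
  one : ∀ y : M, ∃ i, χ i y = 1
  inj : Function.Injective lab

variable {M : Set V} {Eh : Type} [TopologicalSpace Eh] {F : Type} [TopologicalSpace F]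
variable {p : Eh → M}

namespace UceDat

variable (D : UceDat M F p)

/-- the coordinates of the embedding -/
noncomputable def coef (i : Fin D.r) (e : Eh) : ℝ := D.χ i (p e) * D.lab (D.T i e).2

/-- the embedding -/
noncomputable def Phi (e : Eh) : V × E D.r := ((p e : V), uceVec fun i => D.coef i e)

theorem Phi_fst (e : Eh) : (D.Phi e).1 = p e := rfl

theorem Phi_snd (e : Eh) (i : Fin D.r) : (D.Phi e).2 i = D.χ i (p e) * D.lab (D.T i e).2 :=
  uceVec_apply _ i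

theorem mem_base_of_ne {i : Fin D.r} {y : M} (h : D.χ i y ≠ 0) : y ∈ (D.T i).baseSet :=
  D.supp i y (subset_tsupport _ h)

variable [DiscreteTopology F]

theorem continuous_coef (i : Fin D.r) : Continuous (D.coef i) := by
  have hp : Continuous p := D.cov.continuous
  rw [continuous_iff_continuousAt]
  intro e₀
  by_cases h : p e₀ ∈ (D.T i).baseSet
  · have h1 : UCover.sheet (D.T i) (D.T i e₀).2 ∈ 𝓝 e₀ :=
      (UCover.isOpen_sheet _ _).mem_nhds (UCover.mem_sheet.2 ⟨h, rfl⟩)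
    have h2 : ContinuousAt (fun e => D.χ i (p e) * D.lab (D.T i e₀).2) e₀ :=
      (((D.smooth i).continuous.comp (continuous_subtype_val.comp hp)).mul
        continuous_const).continuousAt
    refine h2.congr ?_
    filter_upwards [h1] with e he
    show _ = D.χ i (p e) * D.lab (D.T i e).2
    rw [(UCover.mem_sheet.1 he).2]
  · have h1 : ((p e₀ : M) : V) ∉ tsupport (D.χ i) := fun h' => h (D.supp i _ h')
    have h2 : D.χ i =ᶠ[𝓝 ((p e₀ : M) : V)] 0 := notMem_tsupport_iff_eventuallyEq.1 h1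
    have h3 : Filter.Tendsto (fun e => ((p e : M) : V)) (𝓝 e₀) (𝓝 ((p e₀ : M) : V)) :=
      (continuous_subtype_val.comp hp).continuousAt
    refine (continuousAt_const (y := (0 : ℝ))).congr ?_
    filter_upwards [h3.eventually h2] with e he
    show _ = D.χ i (p e) * D.lab (D.T i e).2
    rw [he]
    simp

theorem continuous_Phi : Continuous D.Phi := by
  refine (continuous_subtype_val.comp D.cov.continuous).prodMk ?_
  unfold uceVec
  exact continuous_finsetSum _ fun i _ => (D.continuous_coef i).smul continuous_const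

theorem eq_of_label {i : Fin D.r} {e e' : Eh} (hp : p e = p e') (hb : p e ∈ (D.T i).baseSet)
    (h : (D.T i e).2 = (D.T i e').2) : e = e' :=
  UCover.injOn_sheet (D.T i) (D.T i e).2 (UCover.mem_sheet.2 ⟨hb, rfl⟩)
    (UCover.mem_sheet.2 ⟨hp ▸ hb, h.symm⟩) hp

theorem injective_Phi : Function.Injective D.Phi := by
  intro e e' h
  have hp : p e = p e' := Subtype.ext (congrArg Prod.fst h)
  obtain ⟨i, hi⟩ := D.one (p e)
  have h2 : (D.Phi e).2 i = (D.Phi e').2 i := by rw [h]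
  rw [Phi_snd, Phi_snd, ← hp, hi, one_mul, one_mul] at h2
  exact D.eq_of_label hp (D.mem_base_of_ne (by rw [hi]; exact one_ne_zero))
    (D.inj (Nat.cast_injective h2))

/-- a good neighbourhood of a point of `M` -/
structure Nb (G : Set V) (i₀ : Fin D.r) : Prop where
  isOpen : IsOpen G
  conn : IsPreconnected (M ∩ G)
  big : ∀ y ∈ G, 1 / 2 < D.χ i₀ y
  alt : ∀ i, (∀ y : M, (y : V) ∈ G → y ∈ (D.T i).baseSet) ∨ ∀ y ∈ G, D.χ i y = 0

theorem exists_nb {n : ℕ} (hM : IsMfd n M) (y₀ : M) :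
    ∃ (G : Set V) (i₀ : Fin D.r), (y₀ : V) ∈ G ∧ D.Nb G i₀ := by
  obtain ⟨i₀, hi₀⟩ := D.one y₀
  have h1 : ∀ i, ∃ Gi : Set V, IsOpen Gi ∧ (y₀ : V) ∈ Gi ∧
      ((∀ y : M, (y : V) ∈ Gi → y ∈ (D.T i).baseSet) ∨ ∀ y ∈ Gi, D.χ i y = 0) := by
    intro i
    by_cases h : y₀ ∈ (D.T i).baseSet
    · obtain ⟨O, hO, hOe⟩ := isOpen_induced_iff.1 (D.T i).open_baseSet
      refine ⟨O, hO, ?_, Or.inl fun y hy => ?_⟩
      · have : y₀ ∈ Subtype.val ⁻¹' O := hOe ▸ h
        exact this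
      · rw [← hOe]
        exact hy
    · exact ⟨(tsupport (D.χ i))ᶜ, (isClosed_tsupport _).isOpen_compl, fun h' => h (D.supp i _ h'),
        Or.inr fun y hy => image_eq_zero_of_notMem_tsupport hy⟩
  choose Gi hGo hGm hGa using h1
  let G' : Set V := {y | 1 / 2 < D.χ i₀ y} ∩ ⋂ i, Gi i
  have hG'o : IsOpen G' :=
    (isOpen_lt continuous_const (D.smooth i₀).continuous).inter (isOpen_iInter_of_finite hGo)
  have hG'm : (y₀ : V) ∈ G' := ⟨by show 1 / 2 < D.χ i₀ y₀; rw [hi₀]; norm_num, mem_iInter.2 hGm⟩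
  obtain ⟨ψ, U, hp, u, hu, hψu⟩ := hM y₀ y₀.2
  have hW : IsOpen (U ∩ ψ ⁻¹' G') := (if_continuousOn hp).isOpen_inter_preimage (if_open hp) hG'o
  obtain ⟨ρ, hρ, hB⟩ := Metric.isOpen_iff.1 hW u ⟨hu, by show ψ u ∈ G'; rw [hψu]; exact hG'm⟩
  obtain ⟨O, hO, hOe⟩ := if_image_open hp Metric.isOpen_ball (hB.trans inter_subset_left)
  have hsub : ψ '' Metric.ball u ρ ⊆ G' := by
    rintro _ ⟨w, hw, rfl⟩
    exact (hB hw).2
  have hMG : M ∩ (O ∩ G') = ψ '' Metric.ball u ρ := by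
    rw [← inter_assoc, ← hOe]
    exact inter_eq_left.2 hsub
  refine ⟨O ∩ G', i₀, ⟨?_, hG'm⟩, hO.inter hG'o, ?_, fun y hy => hy.2.1, fun i => ?_⟩
  · have : (y₀ : V) ∈ M ∩ O := hOe ▸ ⟨u, Metric.mem_ball_self hρ, hψu⟩
    exact this.2
  · rw [hMG]
    exact (convex_ball u ρ).isPreconnected.image ψ
      ((if_continuousOn hp).mono (hB.trans inter_subset_left))
  · rcases hGa i with h | h
    · exact Or.inl fun y hy => h y (mem_iInter.1 hy.2.2 i)
    · exact Or.inr fun y hy => h y (mem_iInter.1 hy.2.2 i)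

/-! ### sheets -/

/-- the sheet over `G` with second coordinate `f₀` in the trivialisation `i₀` -/
def Sh (G : Set V) (i₀ : Fin D.r) (f₀ : F) : Set Eh := {e | (p e : V) ∈ G ∧ (D.T i₀ e).2 = f₀}

/-- the sections of the trivialisations -/
noncomputable def sec (i₀ : Fin D.r) (f₀ : F) (y : M) : Eh :=
  (D.T i₀).toOpenPartialHomeomorph.symm (y, f₀)

theorem proj_sec {i₀ : Fin D.r} (f₀ : F) {y : M} (hy : y ∈ (D.T i₀).baseSet) :
    p (D.sec i₀ f₀ y) = y := (D.T i₀).proj_symm_apply' hy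

theorem triv_sec {i₀ : Fin D.r} (f₀ : F) {y : M} (hy : y ∈ (D.T i₀).baseSet) :
    D.T i₀ (D.sec i₀ f₀ y) = (y, f₀) := (D.T i₀).apply_symm_apply' hy

theorem sec_proj {i₀ : Fin D.r} {e : Eh} (he : p e ∈ (D.T i₀).baseSet) :
    D.sec i₀ (D.T i₀ e).2 (p e) = e := by
  have h1 : e ∈ (D.T i₀).source := (D.T i₀).mem_source.2 he
  have h2 : ((p e, (D.T i₀ e).2) : M × F) = D.T i₀ e := Prod.ext ((D.T i₀).coe_fst h1).symm rfl
  unfold sec
  rw [h2]
  exact (D.T i₀).toOpenPartialHomeomorph.left_inv h1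

theorem continuousOn_sec (i₀ : Fin D.r) (f₀ : F) : ContinuousOn (D.sec i₀ f₀) (D.T i₀).baseSet := by
  refine (D.T i₀).toOpenPartialHomeomorph.continuousOn_symm.comp
    (continuous_id.prodMk continuous_const).continuousOn fun y hy => ?_
  exact (D.T i₀).mem_target.2 hy

variable {D}
variable {G : Set V} {i₀ : Fin D.r}

theorem Nb.base (hN : D.Nb G i₀) {y : M} (hy : (y : V) ∈ G) : y ∈ (D.T i₀).baseSet :=
  D.mem_base_of_ne (by have := hN.big y hy; intro h; rw [h] at this; norm_num at this)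

theorem Nb.sh_eq (hN : D.Nb G i₀) (f₀ : F) :
    D.Sh G i₀ f₀ = D.sec i₀ f₀ '' (Subtype.val ⁻¹' G) := by
  ext e
  constructor
  · rintro ⟨h1, h2⟩
    exact ⟨p e, h1, by rw [← h2]; exact D.sec_proj (hN.base h1)⟩
  · rintro ⟨y, hy, rfl⟩
    refine ⟨?_, ?_⟩
    · rw [D.proj_sec f₀ (hN.base hy)]
      exact hy
    · rw [D.triv_sec f₀ (hN.base hy)]

theorem Nb.sh_conn (hN : D.Nb G i₀) (f₀ : F) : IsPreconnected (D.Sh G i₀ f₀) := by
  rw [hN.sh_eq]
  have h1 : IsPreconnected (Subtype.val ⁻¹' G : Set M) := by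
    rw [← Topology.IsInducing.subtypeVal.isPreconnected_image, Subtype.image_preimage_coe]
    exact hN.conn
  exact h1.image _ ((D.continuousOn_sec i₀ f₀).mono fun y hy => hN.base hy)

theorem Nb.label_const (hN : D.Nb G i₀) {f₀ : F} {i : Fin D.r}
    (hi : ∀ y : M, (y : V) ∈ G → y ∈ (D.T i).baseSet) {e e' : Eh} (he : e ∈ D.Sh G i₀ f₀)
    (he' : e' ∈ D.Sh G i₀ f₀) : (D.T i e).2 = (D.T i e').2 := by
  refine (hN.sh_conn f₀).constant (f := fun e => (D.T i e).2) ?_ he he'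
  exact continuous_snd.comp_continuousOn ((D.T i).toOpenPartialHomeomorph.continuousOn.mono
    fun e he => (D.T i).mem_source.2 (hi _ he.1))

variable (D) in
open Classical in
/-- the constants of the sheet through `e₀` -/
noncomputable def cst (G : Set V) (e₀ : Eh) (i : Fin D.r) : ℝ :=
  if ∀ y : M, (y : V) ∈ G → y ∈ (D.T i).baseSet then (D.lab (D.T i e₀).2 : ℝ) else 0

variable (D) in
/-- the smooth section of `fst` which parametrises the sheet through `e₀` -/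
noncomputable def Lam (G : Set V) (e₀ : Eh) (y : V) : V × E D.r :=
  (y, uceVec fun i => D.χ i y * D.cst G e₀ i)

variable (D) in
theorem contDiff_Lam (G : Set V) (e₀ : Eh) : ContDiff ℝ ∞ (D.Lam G e₀) := by
  refine contDiff_id.prodMk ?_
  unfold uceVec
  exact ContDiff.sum fun i _ => ((D.smooth i).mul contDiff_const).smul contDiff_const

theorem Nb.Phi_eq (hN : D.Nb G i₀) {e₀ e : Eh} (he₀ : (p e₀ : V) ∈ G)
    (he : e ∈ D.Sh G i₀ (D.T i₀ e₀).2) : D.Phi e = D.Lam G e₀ (p e) := by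
  refine Prod.ext rfl ?_
  show uceVec _ = uceVec _
  congr 1
  funext i
  show D.χ i (p e) * D.lab (D.T i e).2 = D.χ i (p e) * D.cst G e₀ i
  rcases hN.alt i with h | h
  · rw [cst, if_pos h, hN.label_const h he ⟨he₀, rfl⟩]
  · rw [h _ he.1, zero_mul, zero_mul]

theorem uce_nat_eq {a b : ℕ} (h : |(a : ℝ) - b| < 1) : a = b := by
  by_contra hne
  have h1 : (a : ℤ) - b ≠ 0 := fun h0 => hne (by omega)
  have h2 : (1 : ℤ) ≤ |(a : ℤ) - b| := Int.one_le_abs h1
  have h3 : ((1 : ℤ) : ℝ) ≤ ((|(a : ℤ) - b| : ℤ) : ℝ) := by exact_mod_cast h2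
  push_cast at h3
  linarith

variable (D) in
/-- the open set which cuts out the sheet through `e₀` -/
def Op (G : Set V) (i₀ : Fin D.r) (e₀ : Eh) : Set (V × E D.r) :=
  {z | z.1 ∈ G ∧ |z.2 i₀ - D.χ i₀ z.1 * D.cst G e₀ i₀| < 1 / 2}

theorem Nb.isOpen_Op (hN : D.Nb G i₀) (e₀ : Eh) : IsOpen (D.Op G i₀ e₀) := by
  have h1 : Continuous fun z : V × E D.r => z.2 i₀ :=
    (EuclideanSpace.proj i₀ : E D.r →L[ℝ] ℝ).continuous.comp continuous_snd
  have h2 : Continuous fun z : V × E D.r => |z.2 i₀ - D.χ i₀ z.1 * D.cst G e₀ i₀| :=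
    (h1.sub (((D.smooth i₀).continuous.comp continuous_fst).mul continuous_const)).abs
  exact (hN.isOpen.preimage continuous_fst).inter (isOpen_lt h2 continuous_const)

theorem Nb.mem_sh (hN : D.Nb G i₀) {e₀ e : Eh} (h : D.Phi e ∈ D.Op G i₀ e₀) :
    e ∈ D.Sh G i₀ (D.T i₀ e₀).2 := by
  obtain ⟨h1, h2⟩ := h
  refine ⟨h1, D.inj (uce_nat_eq ?_)⟩
  rw [Phi_snd, Phi_fst, cst, if_pos (fun y hy => hN.base hy), ← mul_sub, abs_mul] at h2
  have h3 : 1 / 2 < D.χ i₀ (p e) := hN.big _ h1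
  rw [abs_of_pos (by linarith)] at h2
  by_contra h4
  push Not at h4
  nlinarith

theorem Nb.image_Lam (hN : D.Nb G i₀) {e₀ : Eh} (he₀ : (p e₀ : V) ∈ G) :
    D.Lam G e₀ '' (M ∩ G) = range D.Phi ∩ D.Op G i₀ e₀ := by
  ext z
  constructor
  · rintro ⟨y, ⟨hyM, hyG⟩, rfl⟩
    have hb : (⟨y, hyM⟩ : M) ∈ (D.T i₀).baseSet := hN.base hyG
    have hs : D.sec i₀ (D.T i₀ e₀).2 ⟨y, hyM⟩ ∈ D.Sh G i₀ (D.T i₀ e₀).2 := by
      rw [hN.sh_eq]
      exact ⟨⟨y, hyM⟩, hyG, rfl⟩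
    refine ⟨⟨_, (hN.Phi_eq he₀ hs).trans (by rw [D.proj_sec _ hb])⟩, hyG, ?_⟩
    show |uceVec _ i₀ - _| < 1 / 2
    rw [uceVec_apply]
    show |D.χ i₀ y * _ - D.χ i₀ y * _| < 1 / 2
    rw [sub_self, abs_zero]
    norm_num
  · rintro ⟨⟨e, rfl⟩, h⟩
    exact ⟨p e, ⟨(p e).2, h.1⟩, (hN.Phi_eq he₀ (hN.mem_sh h)).symm⟩

/-! ### global properties -/

theorem Nb.isOpen_sh (hN : D.Nb G i₀) (f₀ : F) : IsOpen (D.Sh G i₀ f₀) := by
  have h1 : D.Sh G i₀ f₀ = (fun e => ((p e : M) : V)) ⁻¹' G ∩ UCover.sheet (D.T i₀) f₀ := by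
    ext e
    constructor
    · rintro ⟨h1, h2⟩
      exact ⟨h1, UCover.mem_sheet.2 ⟨hN.base h1, h2⟩⟩
    · rintro ⟨h1, h2⟩
      exact ⟨h1, (UCover.mem_sheet.1 h2).2⟩
  rw [h1]
  exact (hN.isOpen.preimage (continuous_subtype_val.comp D.cov.continuous)).inter
    (UCover.isOpen_sheet _ _)

theorem Nb.Phi_mem_Op (hN : D.Nb G i₀) {e₀ : Eh} (he₀ : (p e₀ : V) ∈ G) :
    D.Phi e₀ ∈ D.Op G i₀ e₀ := by
  have h1 : D.Lam G e₀ (p e₀) ∈ range D.Phi ∩ D.Op G i₀ e₀ :=
    hN.image_Lam he₀ ▸ mem_image_of_mem _ ⟨(p e₀).2, he₀⟩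
  rw [hN.Phi_eq he₀ ⟨he₀, rfl⟩]
  exact h1.2

variable (D)

theorem isClosed_range {n : ℕ} (hcl : IsClosed M) (hM : IsMfd n M) : IsClosed (range D.Phi) := by
  refine isClosed_of_closure_subset fun z hz => ?_
  have hzM : z.1 ∈ M := by
    have h1 : range D.Phi ⊆ Prod.fst ⁻¹' M := by
      rintro _ ⟨e, rfl⟩
      exact (p e).2
    exact (closure_minimal h1 (hcl.preimage continuous_fst)) hz
  obtain ⟨G, i₀, hyG, hN⟩ := D.exists_nb hM ⟨z.1, hzM⟩
  have hyG' : z.1 ∈ G := hyG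
  let q : V × E D.r → ℝ := fun z' => z'.2 i₀ / D.χ i₀ z'.1
  have hq : ContinuousAt q z := by
    have h1 : Continuous fun z : V × E D.r => z.2 i₀ :=
      (EuclideanSpace.proj i₀ : E D.r →L[ℝ] ℝ).continuous.comp continuous_snd
    refine h1.continuousAt.div ((D.smooth i₀).continuous.comp continuous_fst).continuousAt ?_
    have := hN.big _ hyG'
    show D.χ i₀ z.1 ≠ 0
    linarith
  have hNn : {z' : V × E D.r | z'.1 ∈ G ∧ |q z' - q z| < 1 / 2} ∈ 𝓝 z := by
    refine Filter.inter_mem ((hN.isOpen.preimage continuous_fst).mem_nhds hyG') ?_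
    have h2 : q ⁻¹' Metric.ball (q z) (1 / 2) ∈ 𝓝 z :=
      hq (Metric.ball_mem_nhds _ (by norm_num))
    refine Filter.mem_of_superset h2 fun z' hz' => ?_
    have : dist (q z') (q z) < 1 / 2 := hz'
    rwa [Real.dist_eq] at this
  have hqP : ∀ e : Eh, (p e : V) ∈ G → q (D.Phi e) = D.lab (D.T i₀ e).2 := by
    intro e he
    have := hN.big _ he
    show (D.Phi e).2 i₀ / D.χ i₀ (p e) = _
    rw [Phi_snd, mul_div_assoc, mul_comm, div_mul_cancel₀]
    linarith
  obtain ⟨_, he₁, ⟨e₁, rfl⟩⟩ := mem_closure_iff_nhds.1 hz _ hNn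
  have key : range D.Phi ∩ {z' : V × E D.r | z'.1 ∈ G ∧ |q z' - q z| < 1 / 2} ⊆
      {z' | z' = D.Lam G e₁ z'.1} := by
    rintro _ ⟨⟨e, rfl⟩, he⟩
    have h1 := he.2
    have h2 := he₁.2
    rw [hqP e he.1] at h1
    rw [hqP e₁ he₁.1] at h2
    have h3 : e ∈ D.Sh G i₀ (D.T i₀ e₁).2 := by
      refine ⟨he.1, D.inj (uce_nat_eq ?_)⟩
      rw [abs_lt] at h1 h2 ⊢
      constructor <;> linarith [h1.1, h1.2, h2.1, h2.2]
    exact hN.Phi_eq he₁.1 h3
  have hcl2 : IsClosed {z' : V × E D.r | z' = D.Lam G e₁ z'.1} :=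
    isClosed_eq continuous_id ((D.contDiff_Lam G e₁).continuous.comp continuous_fst)
  have hz2 : z ∈ closure (range D.Phi ∩ {z' : V × E D.r | z'.1 ∈ G ∧ |q z' - q z| < 1 / 2}) := by
    refine mem_closure_iff_nhds.2 fun t ht => ?_
    obtain ⟨w, hw1, hw2⟩ := mem_closure_iff_nhds.1 hz _ (Filter.inter_mem ht hNn)
    exact ⟨w, hw1.1, hw2, hw1.2⟩
  have hz3 : z = D.Lam G e₁ z.1 := closure_minimal key hcl2 hz2
  have h4 : D.Lam G e₁ z.1 ∈ range D.Phi ∩ D.Op G i₀ e₁ :=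
    hN.image_Lam he₁.1 ▸ mem_image_of_mem _ ⟨hzM, hyG'⟩
  rw [hz3]
  exact h4.1

theorem isEmbedding_Phi {n : ℕ} (hM : IsMfd n M) : Topology.IsEmbedding D.Phi := by
  refine ⟨Topology.isInducing_iff_nhds.2 fun e₀ =>
    le_antisymm (D.continuous_Phi.tendsto e₀).le_comap ?_, D.injective_Phi⟩
  intro S hS
  obtain ⟨G, i₀, hyG, hN⟩ := D.exists_nb hM (p e₀)
  have h1 : IsOpen (p '' (interior S ∩ D.Sh G i₀ (D.T i₀ e₀).2)) :=
    D.cov.isOpenMap _ (isOpen_interior.inter (hN.isOpen_sh _))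
  obtain ⟨W, hW, hWe⟩ := isOpen_induced_iff.1 h1
  have he₀W : (p e₀ : V) ∈ W := by
    have : p e₀ ∈ Subtype.val ⁻¹' W := by
      rw [hWe]
      exact ⟨e₀, ⟨mem_interior_iff_mem_nhds.2 hS, hyG, rfl⟩, rfl⟩
    exact this
  refine Filter.mem_comap.2 ⟨D.Op G i₀ e₀ ∩ Prod.fst ⁻¹' W,
    ((hN.isOpen_Op e₀).inter (hW.preimage continuous_fst)).mem_nhds ⟨hN.Phi_mem_Op hyG, he₀W⟩, ?_⟩
  intro e he
  have heA := hN.mem_sh he.1
  have h2 : p e ∈ Subtype.val ⁻¹' W := he.2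
  rw [hWe] at h2
  obtain ⟨e', ⟨he'S, he'A⟩, hpe⟩ := h2
  have h3 : e' = e := D.eq_of_label hpe (hN.base he'A.1) (he'A.2.trans heA.2.symm)
  exact h3 ▸ interior_subset he'S

theorem exists_compact [Nonempty F] (hc : IsCompact M) :
    ∃ K : Set (V × E D.r), IsCompact K ∧ K ⊆ range D.Phi ∧ SurjOn Prod.fst K M := by
  obtain ⟨f⟩ := ‹Nonempty F›
  have : CompactSpace M := isCompact_iff_compactSpace.1 hc
  let C : Fin D.r → Set M := fun i => {y | D.χ i y = 1}
  have hC : ∀ i, IsCompact (C i) := fun i =>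
    (isClosed_eq ((D.smooth i).continuous.comp continuous_subtype_val) continuous_const).isCompact
  have hCb : ∀ i, C i ⊆ (D.T i).baseSet := fun i y hy =>
    D.mem_base_of_ne (by have : D.χ i y = 1 := hy; rw [this]; exact one_ne_zero)
  refine ⟨⋃ i, D.Phi '' (D.sec i f '' C i), isCompact_iUnion fun i =>
    ((hC i).image_of_continuousOn ((D.continuousOn_sec i f).mono (hCb i))).image D.continuous_Phi,
    ?_, ?_⟩
  · refine iUnion_subset fun i => ?_
    rintro _ ⟨e, -, rfl⟩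
    exact mem_range_self e
  · intro y hy
    obtain ⟨i, hi⟩ := D.one ⟨y, hy⟩
    refine ⟨D.Phi (D.sec i f ⟨y, hy⟩), mem_iUnion.2 ⟨i, mem_image_of_mem _ (mem_image_of_mem _ hi)⟩, ?_⟩
    rw [Phi_fst, D.proj_sec f (hCb i hi)]

theorem sheeted [Nonempty F] {n : ℕ} (hc : IsCompact M) (hM : IsMfd n M) :
    Sheeted (range D.Phi) M (ContinuousLinearMap.fst ℝ V (E D.r)) where
  closed := D.isClosed_range hc.isClosed hM
  mapsTo := by
    rintro _ ⟨e, rfl⟩
    exact (p e).2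
  sheet := by
    intro y₀ hy₀
    obtain ⟨G, i₀, hyG, hN⟩ := D.exists_nb hM ⟨y₀, hy₀⟩
    refine ⟨G, hN.isOpen, hyG, hN.conn, ?_⟩
    rintro _ ⟨e₀, rfl⟩ he₀
    exact ⟨D.Lam G e₀, D.Op G i₀ e₀, D.contDiff_Lam G e₀, fun y => rfl,
      (hN.Phi_eq he₀ ⟨he₀, rfl⟩).symm, hN.isOpen_Op e₀, hN.image_Lam he₀⟩
  cpt := D.exists_compact hc

end UceDat

end emb

section data

variable {V : Type} [NormedAddCommGroup V] [NormedSpace ℝ V] [FiniteDimensional ℝ V]
variable {M : Set V} {Eh : Type} [TopologicalSpace Eh] {F : Type} [TopologicalSpace F]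
variable {p : Eh → M}

theorem uce_data (hc : IsCompact M) (T : M → Bundle.Trivialization F p)
    (hT : ∀ x, x ∈ (T x).baseSet) :
    ∃ (r : ℕ) (c : Fin r → M) (χ : Fin r → V → ℝ), (∀ i, ContDiff ℝ ∞ (χ i)) ∧
      (∀ i (y : M), (y : V) ∈ tsupport (χ i) → y ∈ (T (c i)).baseSet) ∧ ∀ y : M, ∃ i, χ i y = 1 := by
  have h1 : ∀ y : M, ∃ ε > 0, ∀ z : M, (z : V) ∈ Metric.ball (y : V) ε → z ∈ (T y).baseSet := by
    intro y
    obtain ⟨O, hO, hOe⟩ := isOpen_induced_iff.1 (T y).open_baseSet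
    have hy : (y : V) ∈ O := by
      have : y ∈ Subtype.val ⁻¹' O := hOe ▸ hT y
      exact this
    obtain ⟨ε, hε, hb⟩ := Metric.isOpen_iff.1 hO _ hy
    refine ⟨ε, hε, fun z hz => ?_⟩
    rw [← hOe]
    exact hb hz
  choose ε hε hb using h1
  obtain ⟨t, ht⟩ := hc.elim_nhds_subcover' (fun y hy => Metric.ball y (ε ⟨y, hy⟩ / 4))
    (fun y hy => Metric.ball_mem_nhds _ (by have := hε ⟨y, hy⟩; positivity))
  let f : ∀ y : M, ContDiffBump (y : V) := fun y =>
    ⟨ε y / 4, ε y / 2, by have := hε y; positivity, by have := hε y; linarith⟩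
  refine ⟨t.card, fun i => (t.equivFin.symm i).1, fun i => f (t.equivFin.symm i).1,
    fun i => (f _).contDiff, fun i y hy => ?_, fun y => ?_⟩
  · rw [(f _).tsupport_eq] at hy
    refine hb _ y (Metric.closedBall_subset_ball ?_ hy)
    have := hε (t.equivFin.symm i).1
    show ε _ / 2 < ε _
    linarith
  · obtain ⟨z, hz, hyz⟩ := mem_iUnion₂.1 (ht y.2)
    refine ⟨t.equivFin ⟨z, hz⟩, ?_⟩
    show f (t.equivFin.symm (t.equivFin ⟨z, hz⟩)).1 y = 1
    rw [Equiv.symm_apply_apply]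
    exact (f z).one_of_mem_closedBall (Metric.ball_subset_closedBall hyz)


end data

section transport

variable {V : Type} [NormedAddCommGroup V] [NormedSpace ℝ V]
variable {V' : Type} [NormedAddCommGroup V'] [NormedSpace ℝ V']
variable {V'' : Type} [NormedAddCommGroup V''] [NormedSpace ℝ V'']

theorem Sheeted.transport {X : Set V'} {M : Set V} {P : V' →L[ℝ] V} (h : Sheeted X M P)
    (L : V'' ≃L[ℝ] V') : Sheeted (L ⁻¹' X) M (P.comp (L : V'' →L[ℝ] V')) where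
  closed := h.closed.preimage L.continuous
  mapsTo := fun z hz => h.mapsTo hz
  sheet := by
    intro y₀ hy₀
    obtain ⟨G, hG, hyG, hconn, hs⟩ := h.sheet y₀ hy₀
    refine ⟨G, hG, hyG, hconn, fun x hx hxG => ?_⟩
    obtain ⟨Λ, O, h1, h2, h3, h4, h5⟩ := hs (L x) hx hxG
    refine ⟨L.symm ∘ Λ, L ⁻¹' O, L.symm.contDiff.comp h1, fun y => ?_, ?_, h4.preimage L.continuous,
      ?_⟩
    · show P (L (L.symm (Λ y))) = y
      rw [L.apply_symm_apply, h2]
    · show L.symm (Λ (P (L x))) = x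
      rw [h3, L.symm_apply_apply]
    · rw [image_comp, h5, ← preimage_inter]
      exact L.symm.image_eq_preimage_symm _
  cpt := by
    obtain ⟨K, hK, hKX, hKM⟩ := h.cpt
    refine ⟨L.symm '' K, hK.image L.symm.continuous, ?_, ?_⟩
    · rintro _ ⟨z, hz, rfl⟩
      show L (L.symm z) ∈ X
      rw [L.apply_symm_apply]
      exact hKX hz
    · intro y hy
      obtain ⟨z, hz, rfl⟩ := hKM hy
      exact ⟨L.symm z, mem_image_of_mem _ hz, by show P (L (L.symm z)) = P z; rw [L.apply_symm_apply]⟩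

end transport

/-- **UC-EMB** -/
theorem uc_embed {n N : ℕ} {M : Set (E N)} (hc : IsCompact M) (hM : IsMfd n M)
    {Eh : Type} [TopologicalSpace Eh] {F : Type} [TopologicalSpace F] [DiscreteTopology F]
    [Countable F] [Nonempty F] (p : Eh → M) (T : M → Bundle.Trivialization F p)
    (hT : ∀ x, x ∈ (T x).baseSet) :
    ∃ (N' : ℕ) (P : E N' →L[ℝ] E N) (Φ : Eh → E N'), Topology.IsEmbedding Φ ∧ (∀ e, P (Φ e) = p e) ∧
      Sheeted (range Φ) M P := by
  obtain ⟨r, c, χ, h1, h2, h3⟩ := uce_data hc T hT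
  obtain ⟨lab, hlab⟩ := exists_injective_nat F
  let D : UceDat M F p := ⟨r, fun i => T (c i), χ, lab,
    IsFiberBundle.isCoveringMap fun x => ⟨T x, hT x⟩, h1, h2, h3, hlab⟩
  let L : E (N + r) ≃L[ℝ] E N × E r := EuclideanSpace.finAddEquivProd
  have hr : range (L.symm ∘ D.Phi) = L ⁻¹' range D.Phi := by
    rw [range_comp]
    exact L.symm.image_eq_preimage_symm _
  refine ⟨N + r, (ContinuousLinearMap.fst ℝ (E N) (E r)).comp (L : E (N + r) →L[ℝ] E N × E r),
    L.symm ∘ D.Phi, L.symm.toHomeomorph.isEmbedding.comp (D.isEmbedding_Phi hM), fun e => ?_, ?_⟩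
  · show (L (L.symm (D.Phi e))).1 = p e
    rw [L.apply_symm_apply]
    rfl
  · rw [hr]
    exact (D.sheeted hc hM).transport L

/-- **exit of UCT** -/
theorem uct_main {n N : ℕ} {M : Set (E N)} (hc : IsCompact M) (hconn : IsConnected M)
    (hM : IsMfd n M) :
    ∃ (N' : ℕ) (X : Set (E N')) (P : E N' →L[ℝ] E N) (hS : Sheeted X M P),
      IsCoveringMap (hS.mapsTo.restrict P X M) ∧ SimplyConnectedSpace X := by
  have i1 : PathConnectedSpace M := uc_pathConn hM hconn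
  have i2 : LocallyPathConnectedSpace M := uc_locPathConn hM
  obtain ⟨Eh, _, F, _, _, p, T, hsc, hF, hT⟩ := uc_abs M (uc_simplyConn_nhd hM)
  have hne : Nonempty F := by
    obtain ⟨e⟩ : Nonempty Eh := inferInstance
    exact ⟨(T (p e) e).2⟩
  obtain ⟨N', P, Φ, hΦ, hP, hS⟩ := uc_embed hc hM p T hT
  have hcov : IsCoveringMap p := IsFiberBundle.isCoveringMap fun x => ⟨T x, hT x⟩
  let h : Eh ≃ₜ range Φ := hΦ.toHomeomorph
  refine ⟨N', range Φ, P, hS, ?_, ?_⟩
  · have h1 : hS.mapsTo.restrict P (range Φ) M = p ∘ h.symm := by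
      funext x
      obtain ⟨e, rfl⟩ := h.surjective x
      rw [Function.comp_apply, h.symm_apply_apply]
      exact Subtype.ext (hP e)
    rw [h1, isCoveringMap_iff_isCoveringMapOn_univ]
    exact hcov.isCoveringMapOn.comp_homeomorph h.symm
  · exact h.symm.toHomotopyEquiv.simplyConnectedSpace

end Claimed.Agent.R314
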