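import Claimed.Agent.R314.Iso

/-!
# Row 314, block UC, package UCM (architect helper274), leaf UCM-1: sheets of a covering map

`ucm_sheet` (abstract), `ucm_sheet_set` (for the subtype map `X → M` of a linear `P`).
PLAN `ucm_sheet`: unfold `hp b : IsEvenlyCovered p b (p ⁻¹' {b})` = `⟨discrete, U, hbU, hU, hpU, H : p ⁻¹' U ≃ₜ U × I, hH : ∀ x, (H x).1.1 = p x⟩`.
For `a` with `p a ∈ U` let `i₀ = (H ⟨a, _⟩).2`, `s u = if h : u ∈ U then (H.symm (⟨u, h⟩, i₀)).1 else a`.
`T` preconnected over `U`: `z ↦ (H ⟨z, _⟩).2` is continuous on `T` with values in a discrete space, hence constant `= i₀` (`IsPreconnected.constant` on the subtype / image is a subsingleton).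
PLAN `ucm_sheet_set`: `U = Subtype.val ⁻¹' O` (`isOpen_induced_iff`); `s u = if h : u ∈ M then (s' ⟨u, h⟩ : E N') else a`; `T' = Subtype.val ⁻¹' T` is preconnected
(`Topology.IsInducing.subtypeVal.isPreconnected_image`, `Subtype.image_preimage_coe`).
-/

set_option autoImplicit false
set_option linter.unusedSectionVars false
open scoped ContDiff Topology
open Set Claims.C0499 Claimed.Agent.R315

namespace Claimed.Agent.R314

/-- sections of a covering map over an evenly covered open set; a preconnected set over it lies in one sheet. -/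
theorem ucm_sheet {A B : Type} [TopologicalSpace A] [TopologicalSpace B] {p : A → B}
    (hp : IsCoveringMap p) (b : B) :
    ∃ U : Set B, IsOpen U ∧ b ∈ U ∧ ∀ a : A, p a ∈ U → ∃ s : B → A, ContinuousOn s U ∧
      (∀ u ∈ U, p (s u) = u) ∧ s (p a) = a ∧
      ∀ T : Set A, IsPreconnected T → a ∈ T → MapsTo p T U → ∀ z ∈ T, s (p z) = z := by
  classical
  obtain ⟨hdisc, U, hbU, hU, hpU, H, hH⟩ := hp b
  refine ⟨U, hU, hbU, fun a ha => ?_⟩
  obtain ⟨i₀, hi₀⟩ : ∃ i₀, i₀ = (H ⟨a, ha⟩).2 := ⟨_, rfl⟩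
  have key : ∀ (z : A) (hz : p z ∈ U), (H ⟨z, hz⟩).2 = i₀ → (H.symm (⟨p z, hz⟩, i₀)).1 = z := by
    intro z hz h
    have e : ((⟨p z, hz⟩ : U), i₀) = H ⟨z, hz⟩ := Prod.ext (Subtype.ext (hH ⟨z, hz⟩).symm) h.symm
    rw [e, H.symm_apply_apply]
  refine ⟨fun u => if h : u ∈ U then (H.symm (⟨u, h⟩, i₀)).1 else a, ?_, ?_, ?_, ?_⟩
  · rw [continuousOn_iff_continuous_domRestrict]
    have hc : Continuous fun u : U => (H.symm (u, i₀)).1 := by fun_prop
    refine hc.congr fun u => ?_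
    simp [u.2]
  · intro u hu
    simp only [dif_pos hu]
    rw [← hH]
    simp
  · simp only [dif_pos ha]
    exact key a ha hi₀.symm
  · intro T hT haT hTU z hz
    simp only [dif_pos (hTU hz)]
    refine key z (hTU hz) ?_
    have hT' : IsPreconnected ((Subtype.val : p ⁻¹' U → A) ⁻¹' T) := by
      have e : p ⁻¹' U ∩ T = T := inter_eq_self_of_subset_right fun x hx => hTU hx
      rw [← Topology.IsInducing.subtypeVal.isPreconnected_image, Subtype.image_preimage_coe, e]
      exact hT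
    have hcont : ContinuousOn (fun x : p ⁻¹' U => (H x).2) ((Subtype.val : p ⁻¹' U → A) ⁻¹' T) := by
      fun_prop
    have := hT'.constant hcont (x := ⟨z, hTU hz⟩) (y := ⟨a, ha⟩) hz haT
    rw [hi₀]
    exact this

variable {n N N' : ℕ} {M : Set (E N)} {X : Set (E N')} {P : E N' →L[ℝ] E N}

/-- the same in the language of sets. -/
theorem ucm_sheet_set (hm : MapsTo P X M) (hp : IsCoveringMap (hm.restrict P X M)) {m : E N}
    (hmM : m ∈ M) :
    ∃ O : Set (E N), IsOpen O ∧ m ∈ O ∧ ∀ a ∈ X, P a ∈ O → ∃ s : E N → E N',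
      ContinuousOn s (M ∩ O) ∧ MapsTo s (M ∩ O) X ∧ (∀ u ∈ M ∩ O, P (s u) = u) ∧ s (P a) = a ∧
      ∀ T : Set (E N'), IsPreconnected T → T ⊆ X → a ∈ T → MapsTo P T O → ∀ z ∈ T, s (P z) = z := by
  classical
  obtain ⟨U, hU, hmU, hs⟩ := ucm_sheet hp ⟨m, hmM⟩
  obtain ⟨O, hO, rfl⟩ := isOpen_induced_iff.1 hU
  refine ⟨O, hO, hmU, fun a ha haO => ?_⟩
  obtain ⟨s', hc, hsec, hsa, hT⟩ := hs ⟨a, ha⟩ haO
  refine ⟨fun u => if h : u ∈ M then (s' ⟨u, h⟩ : E N') else a, ?_, ?_, ?_, ?_, ?_⟩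
  · rw [continuousOn_iff_continuous_domRestrict]
    have h1 : Continuous fun u : ↥(M ∩ O) => (⟨u.1, u.2.1⟩ : M) := by fun_prop
    have h2 : Continuous fun u : ↥(M ∩ O) => (s' ⟨u.1, u.2.1⟩ : E N') :=
      continuous_subtype_val.comp (hc.comp_continuous h1 fun u => u.2.2)
    refine h2.congr fun u => ?_
    simp [u.2.1]
  · intro u hu
    simp only [dif_pos hu.1]
    exact (s' _).2
  · intro u hu
    simp only [dif_pos hu.1]
    exact congrArg Subtype.val (hsec ⟨u, hu.1⟩ hu.2)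
  · simp only [dif_pos (hm ha)]
    exact congrArg Subtype.val hsa
  · intro T hTp hTX haT hTO z hz
    simp only [dif_pos (hm (hTX hz))]
    have hT' : IsPreconnected ((Subtype.val : X → E N') ⁻¹' T) := by
      have e : X ∩ T = T := inter_eq_self_of_subset_right hTX
      rw [← Topology.IsInducing.subtypeVal.isPreconnected_image, Subtype.image_preimage_coe, e]
      exact hTp
    exact congrArg Subtype.val (hT _ hT' haT (fun x hx => hTO hx) ⟨z, hTX hz⟩ hz)

end Claimed.Agent.R314
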