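import Claimed.Agent.R314.UC.MetUnif
import Claimed.Agent.R314.LocIso

/-!
# Row 314, block UC, package UCM (architect + prover helper274), leaf UCM-3 (PROVED from `ucm_unif`): uniformly small closed balls of the cover are compact

PLAN.  `M = P '' X` is connected.  `δ` from `ucm_unif`, `η = δ / 2`, `G = if_pullL P g` (a metric on `X`: `LocIso.metric`, see `ucm_main`).
Fix `a ∈ X`, `s` its section, `Q = {u | u ∈ M ∧ rdist M g (P a) u ≤ η}`: compact (closed in the compact `M`: `if_rdist_continuousOn`, `ContinuousOn.preimage_isClosed_of_isClosed`), `s '' Q` compact.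
CLAIM `cb X G a η ⊆ s '' Q`: `z ∈ cb`; `if_exists_len_lt` gives an admissible `c` from `a` to `z` with `if_len G c < δ`; for `t ∈ [0,1]`:
`rdist M g (P a) (P (c t)) ≤ rdist X G a (c t) ≤ if_len G c < δ` (`if_rdist_map_le`, `if_rdist_add_le_len`, `if_rdist_nonneg`); `T = c '' Icc 0 1` is preconnected; so `z = s (P z)`, and `P z ∈ Q` by `if_rdist_map_le`.
`cb X G a η = X ∩ rdist X G a ⁻¹' Iic η` is closed (`hXc`, `if_rdist_continuousOn`); `IsCompact.of_isClosed_subset`.
-/

set_option autoImplicit false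
set_option linter.unusedSectionVars false
open scoped ContDiff Topology
open Set Claims.C0499 Claimed.Agent.R315

namespace Claimed.Agent.R314

variable {n N N' : ℕ} {M : Set (E N)} {X : Set (E N')} {P : E N' →L[ℝ] E N}

theorem ucm_small (hc : IsCompact M) (hM : IsMfd n M) (hXc : IsClosed X) (hX : IsMfd n X)
    (hXconn : IsConnected X) (hcov : IsCov n X M P)
    (hp : IsCoveringMap (hcov.mapsTo.restrict P X M)) {g : Ten (E N)} (hg : IsMetricOn n M g) :
    ∃ η : ℝ, 0 < η ∧ ∀ a ∈ X, IsCompact (cb X (if_pullL P g) a η) := by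
  have hMconn : IsConnected M := by
    have h0 : P '' X = M := hcov.surj.image_eq_of_mapsTo hcov.mapsTo
    rw [← h0]
    exact hXconn.image P P.continuous.continuousOn
  obtain ⟨δ, hδ, hs⟩ := ucm_unif hc hMconn hM hcov.mapsTo hp hg
  have hι : LocIso n X (if_pullL P g) M g P := by
    refine locIso_pullL P g fun x hx => ?_
    obtain ⟨ψ, U, hp', u, hu, rfl⟩ := hX x hx
    obtain ⟨W, hW, huW, hWU, hpW⟩ := hcov.down ψ U hp' u hu
    exact ⟨ψ, W, if_mono hp' hW hWU, ⟨u, huW, rfl⟩, hpW⟩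
  have hmet : IsMetricOn n X (if_pullL P g) := hι.metric hg
  have hten : IsTenOn n X (if_pullL P g) := (if_isMetricOn_iff.1 hmet).1
  have htenM : IsTenOn n M g := (if_isMetricOn_iff.1 hg).1
  refine ⟨δ / 2, by positivity, fun a ha => ?_⟩
  obtain ⟨s, s1, -, -, -, s5⟩ := hs a ha
  have hPa : P a ∈ M := hcov.mapsTo ha
  have hQc : IsCompact (M ∩ rdist M g (P a) ⁻¹' Iic (δ / 2)) :=
    hc.of_isClosed_subset ((if_rdist_continuousOn hM hMconn.isPreconnected htenM
      hPa).preimage_isClosed_of_isClosed hc.isClosed isClosed_Iic) inter_subset_left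
  have hQsub : M ∩ rdist M g (P a) ⁻¹' Iic (δ / 2) ⊆ {u | u ∈ M ∧ rdist M g (P a) u < δ} :=
    fun u hu => ⟨hu.1, by have := hu.2; simp only [mem_preimage, mem_Iic] at this; linarith⟩
  have hsQ : IsCompact (s '' (M ∩ rdist M g (P a) ⁻¹' Iic (δ / 2))) :=
    hQc.image_of_continuousOn (s1.mono hQsub)
  have hcl : IsClosed (cb X (if_pullL P g) a (δ / 2)) :=
    (if_rdist_continuousOn hX hXconn.isPreconnected hten ha).preimage_isClosed_of_isClosed hXc
      isClosed_Iic
  refine hsQ.of_isClosed_subset hcl ?_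
  rintro z ⟨hz, hzd⟩
  have hj : if_Join X a z := if_join_of_connected hX hXconn.isPreconnected ha hz
  obtain ⟨c, hc1, hc0, hc1', hlen⟩ := if_exists_len_lt (g := if_pullL P g) hj (r := δ) (by linarith)
  have hT : ∀ t ∈ Icc (0 : ℝ) 1, rdist M g (P a) (P (c t)) < δ := by
    intro t ht
    have h1 := if_rdist_add_le_len hX hten hc1 ht
    have h2 := if_rdist_nonneg X (if_pullL P g) (c t) (c 1)
    have h3 := if_rdist_map_le P g hcov.mapsTo
      (if_join_of_connected hX hXconn.isPreconnected ha (hc1.2 t ht))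
    rw [hc0] at h1
    linarith
  have hz' : s (P z) = z := by
    refine s5 (c '' Icc 0 1) (isPreconnected_Icc.image c hc1.1.continuous.continuousOn) ?_
      ⟨0, ⟨le_rfl, zero_le_one⟩, hc0⟩ ?_ z ⟨1, ⟨zero_le_one, le_rfl⟩, hc1'⟩
    · rintro _ ⟨t, ht, rfl⟩
      exact hc1.2 t ht
    · rintro _ ⟨t, ht, rfl⟩
      exact hT t ht
  exact ⟨P z, ⟨hcov.mapsTo hz, (if_rdist_map_le P g hcov.mapsTo hj).trans hzd⟩, hz'⟩

end Claimed.Agent.R314
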