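import Claimed.Agent.R314.UC.MetSheet

/-!
# Row 314, block UC, package UCM (architect helper274), leaf UCM-2: the uniform radius (Lebesgue number for `rdist M g`)

PLAN.  For `m ∈ M` take `O_m` from `ucm_sheet_set` and `ε_m > 0` with `rdist M g m y < 2 ε_m → y ∈ O_m` (`if_rdist_lower`).
`B_m = {y | y ∈ M ∧ rdist M g m y < ε_m}` is a neighbourhood of `m` within `M` (`if_rdist_continuousOn`, `if_rdist_self`); finite subcover
(`IsCompact.elim_nhdsWithin_subcover`), `δ = min ε_{m_j}` (`Finset.exists_min_image` or `Finset.inf'`; `M` is nonempty).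
For `a ∈ X`: `P a ∈ B_{m_j}`, so `rdist (P a) u < δ → rdist m_j u < 2 ε_j → u ∈ O_j` (`if_rdist_tri` + `if_join_of_connected`, or `(if_isRd hM hconn hg).tri`);
take `s` of `ucm_sheet_set` for `a` and restrict.
-/

set_option autoImplicit false
set_option linter.unusedSectionVars false
open scoped ContDiff Topology
open Set Claims.C0499 Claimed.Agent.R315

namespace Claimed.Agent.R314

variable {n N N' : ℕ} {M : Set (E N)} {X : Set (E N')} {P : E N' →L[ℝ] E N}

theorem ucm_unif (hc : IsCompact M) (hconn : IsConnected M) (hM : IsMfd n M) (hm : MapsTo P X M)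
    (hp : IsCoveringMap (hm.restrict P X M)) {g : Ten (E N)} (hg : IsMetricOn n M g) :
    ∃ δ : ℝ, 0 < δ ∧ ∀ a ∈ X, ∃ s : E N → E N',
      ContinuousOn s {u | u ∈ M ∧ rdist M g (P a) u < δ} ∧
      MapsTo s {u | u ∈ M ∧ rdist M g (P a) u < δ} X ∧
      (∀ u ∈ M, rdist M g (P a) u < δ → P (s u) = u) ∧ s (P a) = a ∧
      ∀ T : Set (E N'), IsPreconnected T → T ⊆ X → a ∈ T →
        (∀ z ∈ T, rdist M g (P a) (P z) < δ) → ∀ z ∈ T, s (P z) = z := by
  have hRd := if_isRd hM hconn hg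
  choose! O hO hmO hs using fun m (hmM : m ∈ M) => ucm_sheet_set hm hp hmM
  have hex : ∀ m ∈ M, ∃ ε > 0, ∀ y ∈ M, rdist M g m y < 2 * ε → y ∈ O m := by
    intro m hmM
    obtain ⟨ε, hε, h⟩ := if_rdist_lower hM hconn.isPreconnected hg hmM ((hO m hmM).mem_nhds (hmO m hmM))
    exact ⟨ε / 2, by positivity, fun y hy hlt => h y hy (by linarith)⟩
  choose! ε hε hεO using hex
  have hB : ∀ m ∈ M, {y | rdist M g m y < ε m} ∈ 𝓝[M] m := by
    intro m hmM
    have hcont : ContinuousWithinAt (rdist M g m) M m := hRd.cont m hmM m hmM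
    have hlt : rdist M g m m < ε m := by
      rw [hRd.self m hmM]
      exact hε m hmM
    exact hcont (Iio_mem_nhds hlt)
  obtain ⟨t, htM, hcover⟩ := hc.elim_nhdsWithin_subcover (fun m => {y | rdist M g m y < ε m}) hB
  obtain ⟨m₀, hm₀⟩ := hconn.nonempty
  have htne : t.Nonempty := by
    obtain ⟨j, hj, -⟩ := mem_iUnion₂.1 (hcover hm₀)
    exact ⟨j, hj⟩
  obtain ⟨j₀, hj₀, hmin⟩ := t.exists_min_image ε htne
  refine ⟨ε j₀, hε j₀ (htM j₀ hj₀), fun a ha => ?_⟩
  obtain ⟨j, hj, hPa⟩ := mem_iUnion₂.1 (hcover (hm ha))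
  have hPa' : rdist M g j (P a) < ε j := hPa
  have hsub : ∀ u ∈ M, rdist M g (P a) u < ε j₀ → u ∈ O j := by
    intro u hu hlt
    refine hεO j (htM j hj) u hu ?_
    have h1 := hRd.tri j (htM j hj) (P a) (hm ha) u hu
    have h2 := hmin j hj
    linarith
  have hPaO : P a ∈ O j := hsub (P a) (hm ha) (by
    rw [hRd.self _ (hm ha)]
    exact hε j₀ (htM j₀ hj₀))
  obtain ⟨s, hsc, hsX, hsec, hsa, hT⟩ := hs j (htM j hj) a ha hPaO
  have hsubset : {u | u ∈ M ∧ rdist M g (P a) u < ε j₀} ⊆ M ∩ O j := fun u hu => ⟨hu.1, hsub u hu.1 hu.2⟩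
  exact ⟨s, hsc.mono hsubset, hsX.mono_left hsubset, fun u hu hlt => hsec u ⟨hu, hsub u hu hlt⟩, hsa,
    fun T hTp hTX haT hTδ z hz => hT T hTp hTX haT (fun z hz => hsub (P z) (hm (hTX hz)) (hTδ z hz)) z hz⟩

end Claimed.Agent.R314
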